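import Vale.Agent.P219.Flat.Strict.Slack
import Vale.Agent.P219.Rigid.Sphere

/-!
# P219: without curvature bound vanishing slack puts the perimeter on one sphere

Boundary points of least slack converge to one point; off the sphere of its logarithm the slack is
bounded below, so the perimeter there tends to zero.
-/

noncomputable section

open MeasureTheory Set Filter Topology Matrix
open scoped ENNReal

namespace Vale.Agent.P219.CH.Flat.Strict

open CH.Rigid (cosAt cosAt_smul_pos cosAt_cd cosAt_mem OnSphere radius)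
open Relax (ijac ijac_pos)

variable {n : ℕ} {G : (Fin n → ℝ) → Matrix (Fin n) (Fin n) ℝ}
  {D : (Fin n → ℝ) → (Fin n → ℝ) → ℝ}

/-- The slack seen from `y` with covector `ξ`, at `z` with cosine `d`. -/
def kapAt (G : (Fin n → ℝ) → Matrix (Fin n) (Fin n) ℝ) (D : (Fin n → ℝ) → (Fin n → ℝ) → ℝ)
    (μ : ℝ) (b : ℝ) (q : (Fin n → ℝ) × (Fin n → ℝ)) (p : (Fin n → ℝ) × ℝ) : ℝ :=
  kap μ (b * Real.sqrt (2 * D q.1 p.1), cosAt G D p.1 q.1 q.2, p.2)

lemma measurable_slackAt (h : IsCH G D) (μ : ℝ)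
    {u : (Fin n → ℝ) → ℝ} (hu : ContDiff ℝ 1 u) (b : ℝ) :
    Measurable fun z : (Fin n → ℝ) × (Fin n → ℝ) => slackAt G D μ u b z.1 z.2 := by
  have hd := Gen.measurable_scos h hu
  have hc : Measurable fun z : (Fin n → ℝ) × (Fin n → ℝ) => Dir.scos G D u z.2 z.1 := by
    simpa only [Function.comp_def, Prod.fst_swap, Prod.snd_swap] using
      hd.comp (measurable_swap (α := Fin n → ℝ) (β := Fin n → ℝ))
  exact ((continuous_kap μ).measurable.comp
    ((((h.continuous_D.measurable.const_mul 2).sqrt).const_mul b).prodMk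
      (hc.prodMk hd))).ennreal_ofReal

/-- If the slack against the product of the perimeters tends to zero, so does the slack weighted
by the Jacobian, and conversely on a compact set. -/
theorem tendsto_slack_of_weighted (h : IsCH G D) {μ : ℝ}
    {b : ℝ} {o : Fin n → ℝ} {Rd : ℝ} {u : ℕ → (Fin n → ℝ) → ℝ}
    (hu : ∀ k, Comp {y | D o y ≤ Rd} (u k))
    (hlim : Tendsto (fun k => ∫⁻ x, (∫⁻ y, slackAt G D μ (u k) b x y *
      ENNReal.ofReal (ijac G D x y) ∂Sharp.pm G (u k)) ∂Sharp.pm G (u k)) atTop (𝓝 0)) :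
    Tendsto (fun k => ∫⁻ x, (∫⁻ y, slackAt G D μ (u k) b x y
      ∂Sharp.pm G (u k)) ∂Sharp.pm G (u k)) atTop (𝓝 0) := by
  have hK := h.proper o Rd
  rcases ({y | D o y ≤ Rd} : Set (Fin n → ℝ)).eq_empty_or_nonempty with he | hne
  · refine tendsto_const_nhds.congr fun k => ?_
    have hz : Sharp.pm G (u k) = 0 := by
      have h1 := Sharp.ae_mem_pm h hK (hu k)
      simp only [show ∀ y, y ∈ ({y | D o y ≤ Rd} : Set (Fin n → ℝ)) ↔ False from fun y => by
        simp [he]] at h1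
      rwa [eventually_false_iff_eq_bot, ae_eq_bot] at h1
    simp [hz]
  have hc : ContinuousOn (fun z : (Fin n → ℝ) × (Fin n → ℝ) => ijac G D z.1 z.2)
      ({y | D o y ≤ Rd} ×ˢ {y | D o y ≤ Rd}) :=
    (by simpa only [ijacB_flat] using (Relax.continuous_ijacB h 0) :
      Continuous fun z : (Fin n → ℝ) × (Fin n → ℝ) => ijac G D z.1 z.2).continuousOn
  obtain ⟨z₀, hz₀, hmin⟩ := (hK.prod hK).exists_isMinOn (hne.prod hne) hc
  obtain ⟨m, hm⟩ : ∃ m, m = ijac G D z₀.1 z₀.2 := ⟨_, rfl⟩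
  have hm0 : 0 < m := hm ▸ ijac_pos h _ _
  have h0 : Tendsto (fun k => (∫⁻ x, (∫⁻ y, slackAt G D μ (u k) b x y *
      ENNReal.ofReal (ijac G D x y) ∂Sharp.pm G (u k)) ∂Sharp.pm G (u k)) / ENNReal.ofReal m)
      atTop (𝓝 0) := by
    simpa using ENNReal.Tendsto.div_const hlim (Or.inr (ENNReal.ofReal_pos.2 hm0).ne')
  refine tendsto_of_tendsto_of_tendsto_of_le_of_le tendsto_const_nhds h0 (fun _ => zero_le)
    fun k => ?_
  rw [ENNReal.le_div_iff_mul_le (Or.inl (ENNReal.ofReal_pos.2 hm0).ne')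
    (Or.inl ENNReal.ofReal_ne_top), ← lintegral_mul_const' _ _ ENNReal.ofReal_ne_top]
  refine lintegral_mono_ae ((Sharp.ae_mem_pm h hK (hu k)).mono fun x hx => ?_)
  rw [← lintegral_mul_const' _ _ ENNReal.ofReal_ne_top]
  refine lintegral_mono_ae ((Sharp.ae_mem_pm h hK (hu k)).mono fun y hy => ?_)
  exact mul_le_mul_right (ENNReal.ofReal_le_ofReal (hm ▸ hmin (mk_mem_prod hx hy))) _

/-- Some boundary covector of a competitor has slack at most the mean. -/
lemma exists_low_pair [NeZero n] (h : IsCH G D) {Kc : Set (Fin n → ℝ)} (hKc : IsCompact Kc)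
    {u : (Fin n → ℝ) → ℝ} (hu : Comp Kc u) (hP : 0 < per G u) (μ : ℝ) (b : ℝ) :
    ∃ x ξ, x ∈ Kc ∧ conorm G x ξ = 1 ∧
      (∀ z, cosAt G D z x ξ = Dir.scos G D u z x) ∧
      (∫⁻ y, slackAt G D μ u b x y ∂Sharp.pm G u) * ENNReal.ofReal (per G u) ≤
        ∫⁻ x, (∫⁻ y, slackAt G D μ u b x y ∂Sharp.pm G u) ∂Sharp.pm G u := by
  have := Sharp.isFiniteMeasure_pm h hKc hu
  have hm := measurable_slackAt h μ hu.1 b
  have huniv : Sharp.pm G u univ = ENNReal.ofReal (per G u) := by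
    rw [← Sharp.pm_univ h hKc hu, ENNReal.ofReal_toReal (measure_ne_top _ _)]
  have hne : Sharp.pm G u ≠ 0 := fun h0 => by
    simp [h0] at huniv
    linarith
  have hgood : ∀ᵐ y ∂Sharp.pm G u, y ∈ Kc ∧ 0 < conorm G y (cd u y) := by
    refine (Sharp.ae_mem_pm h hKc hu).and ?_
    rw [Sharp.pm, ae_withDensity_iff
      (Sharp.continuous_weight h hu.1).measurable.ennreal_ofReal]
    refine Eventually.of_forall fun y hy => lt_of_le_of_ne (conorm_nonneg _ _) fun h0 => ?_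
    exact hy (by simp [← h0])
  have hgm : Measurable fun x => ∫⁻ y, slackAt G D μ u b x y ∂Sharp.pm G u :=
    hm.lintegral_prod_right'
  obtain ⟨x, hx, hle⟩ := exists_notMem_null_le_laverage hne hgm.aemeasurable (ae_iff.1 hgood)
  simp only [mem_ofPred_eq, not_not] at hx
  have hc0 : 0 < (conorm G x (cd u x))⁻¹ := inv_pos.2 hx.2
  refine ⟨x, (conorm G x (cd u x))⁻¹ • cd u x, hx.1, ?_, fun z => ?_, ?_⟩
  · rw [h.conorm_smul, abs_of_pos hc0, inv_mul_cancel₀ hx.2.ne']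
  · rw [cosAt_smul_pos h hc0, cosAt_cd]
  · rw [laverage_eq, huniv] at hle
    exact (mul_le_mul' hle le_rfl).trans_eq
      (ENNReal.div_mul_cancel (ENNReal.ofReal_pos.2 hP).ne' ENNReal.ofReal_ne_top)

/-- Vanishing slack puts the perimeter on one sphere. -/
theorem sphere [NeZero n] (h : IsCH G D) {b V : ℝ} (hr : 0 < radius n V)
    (hb : b = (radius n V)⁻¹) {μ : ℝ} (hμ : 0 < μ) {o : Fin n → ℝ} {Rd c : ℝ}
    {u : ℕ → (Fin n → ℝ) → ℝ} (hu : ∀ k, Comp {y | D o y ≤ Rd} (u k)) (hc : 0 < c)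
    (hper : ∀ k, c ≤ per G (u k))
    (hslack : Tendsto (fun k => ∫⁻ x, (∫⁻ y, slackAt G D μ (u k) b x y
      ∂Sharp.pm G (u k)) ∂Sharp.pm G (u k)) atTop (𝓝 0)) :
    ∃ (y ξ : Fin n → ℝ) (φ : ℕ → ℕ), StrictMono φ ∧ conorm G y ξ = 1 ∧
      OnSphere G D V y ξ (u ∘ φ) := by
  have hKc := h.proper o Rd
  obtain ⟨ψ, hψ, hψle⟩ := extraction_forall_of_eventually'
    (P := fun m k => (∫⁻ x, (∫⁻ y, slackAt G D μ (u k) b x y ∂Sharp.pm G (u k))
      ∂Sharp.pm G (u k)) ≤ ENNReal.ofReal (1 / ((m : ℝ) + 1)))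
    fun m => eventually_atTop.1 (hslack.eventually
      (eventually_le_nhds (ENNReal.ofReal_pos.2 (by positivity : (0 : ℝ) < 1 / ((m : ℝ) + 1)))))
  have hpts : ∀ m : ℕ, ∃ x ξ, D o x ≤ Rd ∧ conorm G x ξ = 1 ∧
      (∀ z, cosAt G D z x ξ = Dir.scos G D (u (ψ m)) z x) ∧
      ∫⁻ y, slackAt G D μ (u (ψ m)) b x y ∂Sharp.pm G (u (ψ m)) ≤
        ENNReal.ofReal (1 / ((m : ℝ) + 1) / c) := fun m => by
    obtain ⟨x, ξ, hx, hξ, hcos, hle⟩ := exists_low_pair h hKc (hu (ψ m))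
      (hc.trans_le (hper _)) μ b
    refine ⟨x, ξ, hx, hξ, hcos, ?_⟩
    rw [ENNReal.ofReal_div_of_pos hc, ENNReal.le_div_iff_mul_le
      (Or.inl (ENNReal.ofReal_pos.2 hc).ne') (Or.inl ENNReal.ofReal_ne_top)]
    exact (mul_le_mul' le_rfl (ENNReal.ofReal_le_ofReal (hper _))).trans (hle.trans (hψle m))
  choose xs ξs hxs hξs hcos hlow using hpts
  have hT : IsCompact ((fun z : (Fin n → ℝ) × (Fin n → ℝ) × ℝ => (z.1, z.2.1)) ''
      Dir.paramSet G D o Rd {0}) :=
    (Dir.isCompact_paramSet h o Rd isCompact_singleton).image (by fun_prop)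
  obtain ⟨⟨y, ξ⟩, -, φ, hφ, hφlim⟩ := hT.tendsto_subseq (x := fun k => (xs k, ξs k)) fun k =>
    ⟨(xs k, ξs k, 0), ⟨hxs k, (hξs k).le, rfl⟩, rfl⟩
  have hξ : conorm G y ξ = 1 := by
    refine tendsto_nhds_unique ((h.continuous_conorm.tendsto (y, ξ)).comp hφlim) ?_
    simp [Function.comp_def, hξs]
  refine ⟨y, ξ, ψ ∘ φ, hψ.comp hφ, hξ, fun T hT hne => ?_⟩
  rcases T.eq_empty_or_nonempty with rfl | hTne
  · simp
  have hyT : ∀ z ∈ T, y ≠ z := fun z hz he => by
    subst he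
    refine hne y hz ?_
    have h0 : conorm G y (cd (D y) y) = 0 := by
      rw [conorm, h.eikonal, h.dist_self, mul_zero, Real.sqrt_zero]
    have h2 := h.abs_pairing_le y ξ (cd (D y) y)
    rw [h0, mul_zero, abs_nonpos_iff] at h2
    rw [h.dist_self, h2, mul_zero, add_zero]
  have hTd := hT.prod (isCompact_Icc (a := (-1 : ℝ)) (b := 1))
  have hcat : ∀ p ∈ T ×ˢ Icc (-1 : ℝ) 1, ContinuousAt
      (fun w : ((Fin n → ℝ) × (Fin n → ℝ)) × ((Fin n → ℝ) × ℝ) => kapAt G D μ b w.1 w.2)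
      ((y, ξ), p) := by
    rintro ⟨z, d⟩ ⟨hz, -⟩
    have hD' : 0 < D z y := Six.dist_pos h (hyT z hz).symm
    have hy : Continuous fun w : ((Fin n → ℝ) × (Fin n → ℝ)) × ((Fin n → ℝ) × ℝ) => w.1.1 := by
      fun_prop
    have hx : Continuous fun w : ((Fin n → ℝ) × (Fin n → ℝ)) × ((Fin n → ℝ) × ℝ) => w.1.2 := by
      fun_prop
    have hz' : Continuous fun w : ((Fin n → ℝ) × (Fin n → ℝ)) × ((Fin n → ℝ) × ℝ) => w.2.1 := by
      fun_prop
    have hd : Continuous fun w : ((Fin n → ℝ) × (Fin n → ℝ)) × ((Fin n → ℝ) × ℝ) => w.2.2 := by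
      fun_prop
    have hr : Continuous fun w : ((Fin n → ℝ) × (Fin n → ℝ)) × ((Fin n → ℝ) × ℝ) =>
        b * Real.sqrt (2 * D w.1.1 w.2.1) :=
      continuous_const.mul (continuous_const.mul (h.continuous_D.comp (hy.prodMk hz'))).sqrt
    have hcs : ContinuousAt (fun w : ((Fin n → ℝ) × (Fin n → ℝ)) × ((Fin n → ℝ) × ℝ) =>
        cosAt G D w.2.1 w.1.1 w.1.2) ((y, ξ), (z, d)) := by
      unfold cosAt
      refine ContinuousAt.div ?_ ((h.continuous_conorm.comp (hy.prodMk hx)).mul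
        (continuous_const.mul (h.continuous_D.comp (hz'.prodMk hy))).sqrt).continuousAt ?_
      · exact (h.continuous_pairing.comp (hy.prodMk (hx.prodMk
          ((Sharp.contDiff_logCovector h).continuous.comp (hy.prodMk hz'))))).neg.continuousAt
      · simp only
        rw [hξ, one_mul]
        positivity
    exact (continuous_kap μ).continuousAt.comp (hr.continuousAt.prodMk (hcs.prodMk hd.continuousAt))
  have hpos : ∀ p ∈ T ×ˢ Icc (-1 : ℝ) 1, 0 < kapAt G D μ b (y, ξ) p := fun p hp =>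
    lt_of_le_of_ne (kap_nonneg hμ.le _) fun h0 => by
      have hD := Six.dist_pos h (hyT p.1 hp.1)
      have hs0 : 0 < b := hb ▸ inv_pos.2 hr
      have hsp : 0 < Real.sqrt (2 * D y p.1) := by positivity
      have h2 := contact hμ (mul_pos hs0 hsp) h0.symm
      have e : Real.sqrt (2 * D y p.1) * Real.sqrt (2 * D y p.1) = 2 * D y p.1 :=
        Real.mul_self_sqrt (by positivity)
      simp only [cosAt] at h2
      rw [hξ, one_mul, Sharp.dist_symm h p.1 y, ← mul_div_assoc, eq_div_iff hsp.ne', mul_assoc, e,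
        hb, inv_mul_eq_iff_eq_mul₀ hr.ne'] at h2
      refine hne p.1 hp.1 ?_
      rw [Sharp.dist_symm h p.1 y]
      linarith
  obtain ⟨p₀, hp₀, hmin⟩ := hTd.exists_isMinOn (hTne.prod ⟨0, by norm_num, by norm_num⟩)
    (f := kapAt G D μ b (y, ξ)) fun p hp =>
      ((hcat p hp).comp_of_eq
        (continuousAt_const.prodMk continuousAt_id) rfl).continuousWithinAt
  obtain ⟨m, hm⟩ : ∃ m, m = kapAt G D μ b (y, ξ) p₀ / 2 := ⟨_, rfl⟩
  have hm0 : 0 < m := hm ▸ half_pos (hpos p₀ hp₀)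
  have hnear : ∀ᶠ q : (Fin n → ℝ) × (Fin n → ℝ) in 𝓝 (y, ξ), ∀ p ∈ T ×ˢ Icc (-1 : ℝ) 1,
      m < kapAt G D μ b q p := by
    refine hTd.eventually_forall_of_forall_eventually fun p hp => ?_
    refine (hcat p hp).eventually (eventually_gt_nhds ?_)
    rw [hm]
    have := hmin hp
    simp only [mem_setOf_eq] at this
    linarith [hpos p₀ hp₀]
  have hsmall : Tendsto (fun k => 1 / ((φ k : ℝ) + 1)) atTop (𝓝 0) :=
    (tendsto_one_div_add_atTop_nhds_zero_nat).comp hφ.tendsto_atTop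
  have hbound : ∀ᶠ k in atTop, ENNReal.ofReal m *
      (∫⁻ x in T, ENNReal.ofReal (conorm G x (cd (u ((ψ ∘ φ) k)) x) * dens G x)) ≤
        ENNReal.ofReal (1 / ((φ k : ℝ) + 1) / c) := by
    filter_upwards [hφlim.eventually hnear] with k hk'
    have e : ∫⁻ x in T, ENNReal.ofReal (conorm G x (cd (u ((ψ ∘ φ) k)) x) * dens G x) =
        Sharp.pm G (u (ψ (φ k))) T := by
      rw [Sharp.pm, withDensity_apply _ hT.isClosed.measurableSet]
      rfl
    rw [e, ← setLIntegral_const]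
    refine le_trans (setLIntegral_mono' hT.isClosed.measurableSet fun z hz => ?_)
      ((setLIntegral_le_lintegral _ _).trans (hlow (φ k)))
    have hg := hk' (z, Dir.scos G D (u (ψ (φ k))) (xs (φ k)) z) ⟨hz, Gen.scos_mem_Icc h _ _ _⟩
    simp only [Function.comp_apply, kapAt, hcos] at hg
    exact ENNReal.ofReal_le_ofReal hg.le
  have hlim0 : Tendsto (fun k => ENNReal.ofReal (1 / ((φ k : ℝ) + 1) / c) / ENNReal.ofReal m)
      atTop (𝓝 0) := by
    have h1 := ENNReal.tendsto_ofReal (hsmall.div_const c)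
    rw [zero_div, ENNReal.ofReal_zero] at h1
    simpa using ENNReal.Tendsto.div_const h1 (Or.inr (ENNReal.ofReal_pos.2 hm0).ne')
  refine tendsto_of_tendsto_of_tendsto_of_le_of_le' tendsto_const_nhds hlim0
    (Eventually.of_forall fun _ => zero_le) (hbound.mono fun k hk => ?_)
  rw [ENNReal.le_div_iff_mul_le (Or.inl (ENNReal.ofReal_pos.2 hm0).ne')
    (Or.inl ENNReal.ofReal_ne_top), mul_comm]
  exact hk

end Vale.Agent.P219.CH.Flat.Strict
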