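import Vale.Agent.P219.Flat.Strict.Deficit
import Vale.Agent.P219.Flat.Strict.Sphere
import Vale.Agent.P219.Rigid.Shape

/-!
# P219: a strict certificate without curvature bound gives the equality case
-/

noncomputable section

open MeasureTheory Set Filter Topology

namespace Vale.Agent.P219.CH.Flat.Strict

/-- A strict certificate gives rigidity: equality only for flat balls. -/
theorem rigidDim_of_strict (n : ℕ) [NeZero n] (hn : 2 ≤ n) {a : ℝ → ℝ} {β μ : ℝ}
    (hK : StrictAt n a β μ) : CH.Rigid.RigidDim n := by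
  intro G D h Ω A hΩ hΩb hA hV hAV
  obtain ⟨o, R, c, u, ⟨hsub, hu, hlim⟩, hc, hper, hslack⟩ := deficit hn hK h hΩ hΩb hA hV hAV
  have hr : 0 < CH.Rigid.radius n (volG G Ω) := by
    have := Bend.unitBall_pos (show 1 ≤ n by omega)
    unfold CH.Rigid.radius
    positivity
  obtain ⟨y, ξ, φ, hφ, hξ, hon⟩ :=
    sphere h hr rfl hK.mu_pos hu hc hper (tendsto_slack_of_weighted h hu hslack)
  exact CH.Rigid.shape n hn G D h Ω o R y ξ (u ∘ φ) hΩ hV
    ⟨hsub, fun k => hu (φ k), hlim.comp hφ.tendsto_atTop⟩ hξ hon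

end Vale.Agent.P219.CH.Flat.Strict
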