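import Vale.Agent.P219.Flat.Strict.Defs

/-!
# P219: a strict certificate from a lower kernel with margins

`L` bounds the symmetrised kernel of the weights from below up to a factor near one. The facts on
`L` carry the slack, so the certificate stays one after the slack is taken off.
-/

noncomputable section

open MeasureTheory Set Filter Topology

namespace Vale.Agent.P219.CH.Flat.Strict

variable {n : ℕ}

/-- The facts of a lower kernel `L` with level function `h` and slack `kap μ`. -/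
structure LowerFacts (n : ℕ) (a : ℝ → ℝ) (β μ : ℝ) (L : ℝ → ℝ → ℝ → ℝ) (h : ℝ → ℝ) : Prop where
  crit : ∀ r, 0 < r → ∀ c ∈ Icc (-1 : ℝ) 1, ∀ d ∈ Icc (-1 : ℝ) 1, c * d = 0 → μ ≤ L r c d
  pair : ∀ r, 0 < r → ∀ c ∈ Ioc (0 : ℝ) 1, ∀ d ∈ Ioc (0 : ℝ) 1,
    a c * d + a d * c + 2 * β * (c * d) * r + r ^ (n - 1) * kap μ (r, c, d) ≤
      r ^ (n - 1) * L r c d
  level : ∀ r, 0 < r → ∀ c ∈ Ioc (0 : ℝ) 1, ∀ d ∈ Ioc (0 : ℝ) 1,
    -(2 * (c * d) * h r) + r ^ (n - 1) * kap μ (r, c, d) ≤ r ^ (n - 1) * L r c d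
  mixed : ∀ r, 0 < r → ∀ c ∈ Ioc (0 : ℝ) 1, ∀ d ∈ Ioc (0 : ℝ) 1,
    2 * (c * d) * h r + r ^ (n - 1) * μ ≤ r ^ (n - 1) * L r c (-d)
  outward : ∀ r, 0 < r → ∀ c ∈ Ioc (0 : ℝ) 1, ∀ d ∈ Ioc (0 : ℝ) 1, μ ≤ L r (-c) (-d)
  nonneg : ∀ r, 0 < r → 0 ≤ h r
  mono : MonotoneOn h (Ioi 0)

/-- Weights whose kernel is above a factor near one times `L`, with the gain condition. -/
def LowerWeights (n : ℕ) (L : ℝ → ℝ → ℝ → ℝ) : Prop :=
  ∀ ε T : ℝ, 0 < ε → 0 < T → ∃ (w : ℝ × ℝ → ℝ) (f : ℝ → ℝ), ContDiff ℝ 1 w ∧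
    (∀ p q, 0 ≤ p → q ^ 2 ≤ 2 * p → 0 < w (p, q)) ∧ GainOK n ε T w ∧
    (∀ r, 0 < r → f r ∈ Icc (0 : ℝ) 1 ∧ (∀ q, r ≤ q → f r ≤ f q) ∧ (1 - f r) * r ≤ ε) ∧
    ∀ r c d, r ∈ Ioc 0 T → c ∈ Icc (-1 : ℝ) 1 → d ∈ Icc (-1 : ℝ) 1 →
      f r * L r c d ≤ sym n w r c d + ε

/-- A lower kernel with margins makes the certificate strict. -/
theorem strictAt_of_lower [NeZero n] {a : ℝ → ℝ} {β μ : ℝ} {L : ℝ → ℝ → ℝ → ℝ} {h : ℝ → ℝ}
    (hcert : Cert n a β) (hμ : 0 < μ) (hL : LowerFacts n a β μ L h) (hW : LowerWeights n L) :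
    StrictAt n a β μ := by
  refine ⟨hcert, hμ, fun ε T hε hT => ?_⟩
  have hβ := hcert.beta_nonneg
  have ha := hcert.a_nonpos
  obtain ⟨x, hx⟩ : ∃ x, x = ε / (β + μ + 1) := ⟨_, rfl⟩
  have hx0 : 0 < x := hx ▸ by positivity
  have hxe : x * (β + μ + 1) = ε := by rw [hx]; field_simp
  have hxβ : 0 ≤ x * β := mul_nonneg hx0.le hβ
  have hxμ : 0 ≤ x * μ := mul_nonneg hx0.le hμ.le
  obtain ⟨w, f, hw, hwpos, hwG, hf, hlow⟩ := hW x T hx0 hT
  refine ⟨w, hw, hwpos, fun r c d hr hc hd => by linarith [hwG r c d hr hc hd], ?_, ?_⟩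
  all_goals
    have key : ∀ r c d, r ∈ Ioc 0 T → c ∈ Icc (-1 : ℝ) 1 → d ∈ Icc (-1 : ℝ) 1 →
        f r * (L r c d - kap μ (r, c, d)) ≤ cutK n μ ε w (r, c, d) + ε := fun r c d hr hc hd => by
      obtain ⟨hf0, -, hfl⟩ := hf r hr.1
      have h1 := hlow r c d hr hc hd
      have hk0 := kap_nonneg hμ.le (r, c, d)
      have hk1 := (kap_le hμ.le hr.1.le hc hd).1
      simp only [cutK]
      rcases le_total (kap μ (r, c, d)) ε with hk | hk
      · rw [max_eq_right (sub_nonpos.2 hk)]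
        linarith [mul_nonneg hf0.1 hk0]
      · rw [max_eq_left (sub_nonneg.2 hk)]
        have h2 := mul_le_mul_of_nonneg_left hk1 (sub_nonneg.2 hf0.2)
        have h3 := mul_le_mul_of_nonneg_left hfl hμ.le
        linarith
  · intro r c d hr hc hd hcd
    rcases hr.1.eq_or_lt with h0 | h0
    · subst h0
      simp only [cutK, kap_zero, zero_sub, max_eq_right (neg_nonpos.2 hε.le), sub_zero]
      have h1 := hwG 0 c d hr hc hd
      have e : gainW w 0 c d = 0 := by simp [gainW, hcd]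
      linarith
    · have h1 := key r c d ⟨h0, hr.2⟩ hc hd
      have h2 := mul_nonneg (hf r h0).1.1 (sub_nonneg.2
        ((kap_le hμ.le h0.le hc hd).2.1.trans (hL.crit r h0 c hc d hd hcd)))
      linarith
  have hin : ∀ {x : ℝ}, x ∈ Ioc (0 : ℝ) 1 → x ∈ Icc (-1 : ℝ) 1 ∧ -x ∈ Icc (-1 : ℝ) 1 := fun hx =>
    ⟨⟨by linarith [hx.1], hx.2⟩, by linarith [hx.2], by linarith [hx.1]⟩
  have keyP : ∀ r c d, r ∈ Ioc 0 T → c ∈ Icc (-1 : ℝ) 1 → d ∈ Icc (-1 : ℝ) 1 →
      f r * (r ^ (n - 1) * L r c d - r ^ (n - 1) * kap μ (r, c, d)) ≤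
        r ^ (n - 1) * (cutK n μ ε w (r, c, d) + ε) := fun r c d hr hc hd => by
    rw [← mul_sub, mul_left_comm]
    exact mul_le_mul_of_nonneg_left (key r c d hr hc hd) (pow_nonneg hr.1.le _)
  refine lineK_of_pointwise (cutK_comm μ ε w) hβ hε.le
    (fun c hc => ha c (Ioc_subset_Icc_self hc)) ?_ ?_ ?_
  · intro r c d hr hc hd
    obtain ⟨hf0, -, hfl⟩ := hf r hr.1
    have hcd : 0 < c * d := mul_pos hc.1 hd.1
    have h1 := keyP r c d hr (hin hc).1 (hin hd).1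
    have h2 := mul_le_mul_of_nonneg_left (le_sub_iff_add_le.2 (hL.pair r hr.1 c hc d hd)) hf0.1
    have hA : a c / c + a d / d ≤ 0 :=
      add_nonpos (div_nonpos_of_nonpos_of_nonneg (ha c (Ioc_subset_Icc_self hc)) hc.1.le)
        (div_nonpos_of_nonpos_of_nonneg (ha d (Ioc_subset_Icc_self hd)) hd.1.le)
    have h3 : a c / c + a d / d + 2 * β * r - 2 * ε ≤ f r * (a c / c + a d / d + 2 * β * r) := by
      have := mul_le_mul_of_nonneg_left hfl hβ
      have := mul_nonpos_of_nonpos_of_nonneg hA (sub_nonneg.2 hf0.2)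
      linarith
    have h4 := mul_le_mul_of_nonneg_left h3 hcd.le
    have e : c * d * (a c / c + a d / d + 2 * β * r) =
        a c * d + a d * c + 2 * β * (c * d) * r := by
      have := hc.1.ne'; have := hd.1.ne'
      field_simp
    rw [mul_left_comm, e] at h4
    rw [phiK, abs_of_pos hcd, le_div_iff₀ hcd]
    linarith
  · intro r q c d e hr hrq hqT hc hd he
    have hq0 := hr.trans_le hrq
    obtain ⟨hfr, hfm, -⟩ := hf r hr
    have hfq := (hf q hq0).1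
    have hcd := mul_pos hc.1 hd.1
    have hce := mul_pos hc.1 he.1
    have h1 : -(f r * (2 * h r)) ≤ phiK n ε (cutK n μ ε w) r c d := by
      have h6 := keyP r c d ⟨hr, hrq.trans hqT⟩ (hin hc).1 (hin hd).1
      have h7 := mul_le_mul_of_nonneg_left (le_sub_iff_add_le.2 (hL.level r hr c hc d hd)) hfr.1
      rw [phiK, abs_of_pos hcd, le_div_iff₀ hcd]
      linarith
    have h2 : f q * (2 * h q) ≤ phiK n ε (cutK n μ ε w) q c (-e) := by
      have h6 := keyP q c (-e) ⟨hq0, hqT⟩ (hin hc).1 (hin he).2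
      have h7 := mul_le_mul_of_nonneg_left (mul_le_mul_of_nonneg_left
        (kap_le hμ.le hq0.le (hin hc).1 (hin he).2).2.1 (pow_nonneg hq0.le (n - 1))) hfq.1
      have h8 := mul_le_mul_of_nonneg_left (hL.mixed q hq0 c hc e he) hfq.1
      rw [phiK, mul_neg, abs_neg, abs_of_pos hce, le_div_iff₀ hce]
      linarith
    have := mul_le_mul (hfm q hrq)
      (mul_le_mul_of_nonneg_left (hL.mono hr hq0 hrq) (zero_le_two (α := ℝ)))
      (mul_nonneg zero_le_two (hL.nonneg r hr)) hfq.1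
    linarith
  · intro r c d hr hc hd
    have hf0 := (hf r hr.1).1.1
    have hp := pow_nonneg hr.1.le (n - 1)
    have a1 := key r c (-d) hr (hin hc).1 (hin hd).2
    have a2 := key r (-c) (-d) hr (hin hc).2 (hin hd).2
    have k1 := (kap_le hμ.le hr.1.le (hin hc).1 (hin hd).2).2.1
    have k2 := (kap_le hμ.le hr.1.le (hin hc).2 (hin hd).2).2.1
    have m2 := k2.trans (hL.outward r hr.1 c hc d hd)
    have m1 : kap μ (r, c, -d) ≤ L r c (-d) := by
      have h5 := hL.mixed r hr.1 c hc d hd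
      have h0 := hL.nonneg r hr.1
      have : 0 ≤ 2 * (c * d) * h r := by have := hc.1; have := hd.1; positivity
      have h6 : r ^ (n - 1) * μ ≤ r ^ (n - 1) * L r c (-d) := by linarith
      exact k1.trans (le_of_mul_le_mul_left h6 (pow_pos hr.1 _))
    exact ⟨div_nonneg (mul_nonneg hp ((mul_nonneg hf0 (sub_nonneg.2 m1)).trans a1)) (abs_nonneg _),
      div_nonneg (mul_nonneg hp ((mul_nonneg hf0 (sub_nonneg.2 m2)).trans a2)) (abs_nonneg _)⟩

end Vale.Agent.P219.CH.Flat.Strict
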