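import Vale.Agent.P219.Flat.Strict.Slack
import Vale.Agent.P219.Flat.Assembly
import Vale.Agent.P219.Relax.Rigid.Level
import Vale.Agent.P219.Rigid.Centre
import Vale.Agent.P219.Rigid.Strict

/-!
# P219: at equality without curvature bound the slack tends to zero

Competitors converging to a minimal set are almost minimisers against the Euclidean profile. Their
rows and the pair integral of the cut kernel leave only the slack, which tends to zero.
-/

noncomputable section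

open MeasureTheory Set Filter Topology Matrix
open scoped ENNReal

namespace Vale.Agent.P219.CH.Flat.Strict

open Gen (mass radial cmean cmean_nonneg scaled conorm_dirCov_le dirCov)
open CH.Rigid (exists_close vol_gap_close)
open Relax (supports_model Supports row_exactV NearMinV ijac)
open Relax.Rigid (level_profile)

variable {n : ℕ}

/-- At equality some competitors have vanishing weighted slack. -/
theorem deficit [NeZero n] (hn : 2 ≤ n) {a : ℝ → ℝ} {β μ : ℝ} (hK' : StrictAt n a β μ)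
    {G : (Fin n → ℝ) → Matrix (Fin n) (Fin n) ℝ} {D : (Fin n → ℝ) → (Fin n → ℝ) → ℝ}
    (h : IsCH G D) {Ω : Set (Fin n → ℝ)} {A : ℝ} (hΩ : MeasurableSet Ω)
    (hΩb : Bornology.IsBounded Ω) (hP : PerimeterLE G Ω A) (hV0 : 0 < volG G Ω)
    (hAA : A ≤ (n : ℝ) * Bend.unitBall n ^ (1 / n : ℝ) * volG G Ω ^ (((n : ℝ) - 1) / n)) :
    ∃ (o : Fin n → ℝ) (Rd c : ℝ) (u : ℕ → (Fin n → ℝ) → ℝ),
      CH.Rigid.Approx G D Ω o Rd u ∧ 0 < c ∧ (∀ k, c ≤ per G (u k)) ∧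
      Tendsto (fun k => ∫⁻ x, (∫⁻ y,
        slackAt G D μ (u k) (CH.Rigid.radius n (volG G Ω))⁻¹ x y *
          ENNReal.ofReal (ijac G D x y) ∂Sharp.pm G (u k)) ∂Sharp.pm G (u k)) atTop (𝓝 0) := by
  have hn1 : 1 ≤ n := by omega
  have hcert := hK'.cert
  have hn0 : (0 : ℝ) < n := by exact_mod_cast hn1
  obtain ⟨S, v, hS, hv, hlim, hA⟩ := id hP
  obtain ⟨e, he⟩ := Six.exists_isExp h
  obtain ⟨hm0, hmrad, -⟩ := Gen.momentPin n hn
  obtain ⟨Mm, hMm⟩ : ∃ Mm, Mm = mass n := ⟨_, rfl⟩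
  obtain ⟨Rr, hRr⟩ : ∃ Rr, Rr = radial n := ⟨_, rfl⟩
  obtain ⟨ω, hω⟩ : ∃ ω, ω = Bend.unitBall n := ⟨_, rfl⟩
  rw [← hMm, ← hω, ← hRr] at hmrad
  have hω0 : 0 < ω := hω ▸ Bend.unitBall_pos hn1
  have hM0 : 0 < Mm := hMm ▸ hm0
  have hRr0 : 0 < Rr := pos_of_mul_pos_right (hmrad ▸ hM0) (by positivity)
  obtain ⟨E, hE⟩ : ∃ E, E = cmean n fun c => -a c := ⟨_, rfl⟩
  have hE0 : 0 ≤ E := hE ▸ cmean_nonneg hm0 fun c hc => by linarith [hcert.a_nonpos c hc]
  have hβ := hcert.beta_nonneg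
  have hv' := hcert.value
  rw [← hE] at hv'
  obtain ⟨Φ, hΦd⟩ : ∃ Φ, Φ = Bend.modelProfile n 0 1 := ⟨_, rfl⟩
  obtain ⟨hs, hsd⟩ : ∃ hs, hs = Bend.modelSlope n 0 1 := ⟨_, rfl⟩
  have hΦ : Bend.IsProfile Φ hs := hΦd ▸ hsd ▸ Bend.modelPin n hn 0 1 le_rfl one_pos
  have hsup : Supports Φ hs := hΦd ▸ hsd ▸ supports_model hn (le_refl (0 : ℝ)) one_pos
  obtain ⟨V, hVd⟩ : ∃ V, V = volG G Ω := ⟨_, rfl⟩
  rw [← hVd] at hV0 hAA ⊢
  rw [← hω] at hAA
  have hsharp : ∀ W : ℝ, 0 ≤ W → Φ W = (n : ℝ) * ω ^ (1 / n : ℝ) * W ^ (((n : ℝ) - 1) / n) := by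
    intro W hW
    obtain ⟨t, ht⟩ : ∃ t, t = Bend.modelRad n 0 (W / ω) := ⟨_, rfl⟩
    have ht0 : 0 ≤ t := ht ▸ (Bend.modelRad_spec hn1 0 (div_nonneg hW hω0.le)).1
    have hWe : ω * t ^ n = W := by
      rw [ht, modelRad_flat hn1 (div_nonneg hW hω0.le), mul_div_cancel₀ _ hω0.ne']
    rw [hΦd, modelProfile_flat, ← hω, ← ht, ← hWe, Real.mul_rpow hω0.le (pow_nonneg ht0 n),
      ← Real.rpow_natCast t n, ← Real.rpow_mul ht0, mul_div_cancel₀ _ hn0.ne',
      ← Real.rpow_natCast t (n - 1), Nat.cast_sub hn1, Nat.cast_one,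
      show (n : ℝ) * ω ^ (1 / n : ℝ) * (ω ^ (((n : ℝ) - 1) / n) * t ^ ((n : ℝ) - 1)) =
        (n : ℝ) * (ω ^ (1 / n : ℝ) * ω ^ (((n : ℝ) - 1) / n)) * t ^ ((n : ℝ) - 1) by ring,
      ← Real.rpow_add hω0, show 1 / (n : ℝ) + ((n : ℝ) - 1) / n = 1 by field_simp; ring,
      Real.rpow_one]
    ring
  obtain ⟨t, htd⟩ : ∃ t, t = CH.Rigid.radius n V := ⟨_, rfl⟩
  rw [← htd]
  have ht0 : 0 < t := by rw [htd, CH.Rigid.radius, ← hω]; positivity
  have hVe : ω * t ^ n = V := by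
    rw [htd, CH.Rigid.radius, ← hω, one_div,
      Real.rpow_inv_natCast_pow (div_nonneg hV0.le hω0.le) (by omega),
      mul_div_cancel₀ _ hω0.ne']
  obtain ⟨b, hbd⟩ : ∃ b, b = t⁻¹ := ⟨_, rfl⟩
  rw [← hbd]
  have hb : 0 < b := hbd ▸ inv_pos.2 ht0
  obtain ⟨bk, hbk⟩ : ∃ bk, bk = b ^ (n - 1) := ⟨_, rfl⟩
  have hbk0 : 0 < bk := hbk ▸ pow_pos hb _
  have hrad : Bend.modelRad n 0 (V / ω) = t := by
    have h1 := modelRad_flat hn1 (q := V / ω) (by positivity)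
    refine (pow_left_inj₀ (Bend.modelRad_spec hn1 0 (by positivity)).1 ht0.le
      (show n ≠ 0 by omega)).1 (h1.trans ?_)
    rw [← hVe, mul_div_cancel_left₀ _ hω0.ne']
  have eΦ : Φ V = ω * ((n : ℝ) * t ^ (n - 1)) := by
    rw [hΦd, modelProfile_flat, ← hω, hrad, one_mul]
  have hΦV0 : 0 < Φ V := by rw [eΦ]; positivity
  have hH : hs V = ((n : ℝ) - 1) * b := by
    rw [hsd, modelSlope_flat, ← hω, hrad, hbd]
    ring
  have hset : ∀ (W : Set (Fin n → ℝ)) (A' : ℝ), MeasurableSet W → Bornology.IsBounded W →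
      PerimeterLE G W A' → Φ (volG G W) ≤ A' := fun W A' h1 h2 h3 => by
    rw [hsharp (volG G W) (setIntegral_nonneg h1 fun y _ => (h.dens_pos y).le), hω]
    exact sharpDim_of_cert n hn hcert G D h W A' h1 h2 h3
  have hAeq : A = Φ V := by
    refine le_antisymm (hsharp V hV0.le ▸ hAA) ?_
    rw [hVd]
    exact hset Ω A hΩ hΩb hP
  set o : Fin n → ℝ := 0
  obtain ⟨Rd, hRd, hSK, hΩK⟩ : ∃ Rd : ℝ, 0 < Rd ∧ S ⊆ {y | D o y ≤ Rd} ∧
      Ω ⊆ {y | D o y ≤ Rd} := by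
    obtain ⟨B, hB⟩ := (hS.union hΩb.isCompact_closure).bddAbove_image
      ((h.contDiff_D o).continuous.continuousOn)
    exact ⟨max B 1, by positivity,
      fun y hy => (hB ⟨y, Or.inl hy, rfl⟩).trans (le_max_left _ _),
      fun y hy => (hB ⟨y, Or.inr (subset_closure hy), rfl⟩).trans (le_max_left _ _)⟩
  set K : Set (Fin n → ℝ) := {y | D o y ≤ Rd}
  have hK : IsCompact K := h.proper o Rd
  obtain ⟨B, hB⟩ := hK.bddAbove_image h.continuous_dens.continuousOn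
  have hB' : ∀ y ∈ K, dens G y ≤ B := fun y hy => hB ⟨y, hy, rfl⟩
  have hoK : o ∈ K := by show D o o ≤ Rd; rw [h.dist_self]; exact hRd.le
  have hB0 : 0 ≤ B := (h.dens_pos o).le.trans (hB' o hoK)
  have hA0 : 0 ≤ A := hAeq ▸ hΦV0.le
  have hex : ∀ j : ℕ, ∃ w, Comp K w ∧ per G w ≤ A + (1 / 2) ^ j ∧
      ∫ y, |w y - Ω.indicator 1 y| ≤ (1 / 2) ^ j := fun j =>
    exists_close h hK hΩ hΩK hSK hv hlim hA (by positivity)
  choose w hw hwp hwi using hex
  have hgeo : Tendsto (fun j : ℕ => ((1 : ℝ) / 2) ^ j) atTop (𝓝 0) :=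
    tendsto_pow_atTop_nhds_zero_of_lt_one (by norm_num) (by norm_num)
  have hBgeo : Tendsto (fun j : ℕ => B * ((1 : ℝ) / 2) ^ j) atTop (𝓝 0) := by
    simpa using hgeo.const_mul B
  have hwV : Tendsto (fun j => vol G (w j)) atTop (𝓝 V) := by
    rw [tendsto_iff_norm_sub_tendsto_zero]
    refine squeeze_zero (fun j => norm_nonneg _) (fun j => ?_) hBgeo
    rw [Real.norm_eq_abs, hVd]
    exact (vol_gap_close h hK hΩ hΩK hB' (hw j)).1.trans (mul_le_mul_of_nonneg_left (hwi j) hB0)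
  have hwg : Tendsto (fun j => gap G (w j)) atTop (𝓝 0) :=
    squeeze_zero (fun j => h.gap_nonneg (hw j).2.2) (fun j =>
      (vol_gap_close h hK hΩ hΩK hB' (hw j)).2.trans (mul_le_mul_of_nonneg_left (hwi j) hB0)) hBgeo
  have hcΦ : Tendsto (fun j => Φ (vol G (w j))) atTop (𝓝 (Φ V)) :=
    ((hΦ.cont.continuousAt (Ici_mem_nhds hV0)).tendsto).comp hwV
  obtain ⟨M, hM⟩ : ∃ M, M = 2 * (Φ (V / 4) / (V / 4)) := ⟨_, rfl⟩
  have hM0' : 0 ≤ M := by
    have h1 := hΦ.mono (mem_Ici.2 le_rfl) (mem_Ici.2 (by linarith : 0 ≤ V / 4)) (by linarith)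
    rw [hΦ.zero] at h1
    rw [hM]; positivity
  have hJ : ∀ u, Comp K u → V / 4 ≤ vol G u → 0 ≤ per G u - Φ (vol G u) + M * gap G u := by
    intro u hu hv4
    have hu0 : 0 < vol G u := by linarith
    have h2 : 2 * (Φ (vol G u) / vol G u) ≤ M := by
      rw [hM]
      refine mul_le_mul_of_nonneg_left ?_ zero_le_two
      rw [div_le_div_iff₀ hu0 (by linarith)]
      linarith [hΦ.scale (vol G u) (V / 4) (by linarith) hv4]
    linarith [level_profile h hΦ hset hK hu hu0,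
      mul_le_mul_of_nonneg_right h2 (h.gap_nonneg (G := G) hu.2.2)]
  obtain ⟨Bd, hBd⟩ := (hK.prod hK).bddAbove_image h.continuous_D.continuousOn
  obtain ⟨T, hT⟩ : ∃ T : ℝ, T = b * Real.sqrt (2 * max Bd 0) + 1 := ⟨_, rfl⟩
  have hT0 : 0 < T := by rw [hT]; positivity
  have hTb : ∀ x y, D o x ≤ Rd → D o y ≤ Rd → b * Real.sqrt (2 * D x y) ≤ T := fun x y hx hy => by
    rw [hT]
    have := (hBd ⟨(x, y), ⟨hx, hy⟩, rfl⟩).trans (le_max_left Bd 0)
    exact (mul_le_mul_of_nonneg_left (Real.sqrt_le_sqrt (by linarith)) hb.le).trans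
      (le_add_of_nonneg_right zero_le_one)
  obtain ⟨xs, hxs⟩ : ∃ xs : ℕ → ℝ, xs = fun k : ℕ => 1 / ((k : ℝ) + 2) := ⟨_, rfl⟩
  have hstep : ∀ k : ℕ, ∃ j : ℕ, k ≤ j ∧ gap G (w j) ≤ xs k * xs k ∧ Φ V / 2 ≤ per G (w j) ∧
      (∫⁻ x, (∫⁻ y, slackAt G D μ (w j) b x y * ENNReal.ofReal (ijac G D x y)
          ∂Sharp.pm G (w j)) ∂Sharp.pm G (w j)) ≤
        ENNReal.ofReal (((Rr * bk * ((2 + 3 * xs k) * (A + (1 / 2) ^ j) ^ 2 +
            2 * xs k * (A + (1 / 2) ^ j))) + 2 * Mm * (xs k + E) * (A + (1 / 2) ^ j) -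
          2 * Mm * β * b * (1 - xs k) ^ 2 * (vol G (w j) - xs k)) / (Rr * bk)) := by
    intro k
    obtain ⟨x, hx⟩ : ∃ x, x = xs k := ⟨_, rfl⟩
    rw [← hx]
    have hx0 : 0 < x := by rw [hx, hxs]; positivity
    have hx1 : x < 1 := by
      rw [hx, hxs, div_lt_one (by positivity)]
      linarith [(k.cast_nonneg : (0 : ℝ) ≤ k)]
    obtain ⟨wt, hwt, hwpos, hwG, hwC, hwL⟩ := hK'.weight x T hx0 hT0
    have hws : ContDiff ℝ 1 (scaled wt b) :=
      hwt.comp (by fun_prop : ContDiff ℝ 1 fun z : ℝ × ℝ => (b ^ 2 * z.1, b * z.2))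
    have hwspos : ∀ p q, 0 ≤ p → q ^ 2 ≤ 2 * p → 0 < scaled wt b (p, q) := fun p q hp hq =>
      hwpos _ _ (by positivity) (by
        calc (b * q) ^ 2 = b ^ 2 * q ^ 2 := mul_pow b q 2
          _ ≤ b ^ 2 * (2 * p) := by gcongr
          _ = _ := by ring)
    have hwc : Continuous fun q : ℝ × ℝ => q.1 / b * wt (q.1 ^ 2 / 2, q.1 * q.2) :=
      (continuous_fst.div_const b).mul (hwt.continuous.comp
        (((continuous_fst.pow 2).div_const 2).prodMk (continuous_fst.mul continuous_snd)))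
    obtain ⟨C, hC'⟩ := ((isCompact_Icc (a := (0 : ℝ)) (b := T)).prod
      (isCompact_Icc (a := (-1 : ℝ)) (b := 1))).exists_bound_of_continuousOn hwc.continuousOn
    obtain ⟨C₀, hC₀⟩ : ∃ C₀, C₀ = max C 0 := ⟨_, rfl⟩
    have hC₀0 : 0 ≤ C₀ := hC₀ ▸ le_max_right _ _
    obtain ⟨δ, hrow, hδ0⟩ := ((row_exactV h (by omega) o (R := Rd) (P₀ := A + 1) (v₀ := V / 2)
      (by linarith) (by linarith) hΦ hsup hM0' (half_pos hx0) hws hwspos).and
      (self_mem_nhdsWithin : ∀ᶠ d in 𝓝[>] (0 : ℝ), d ∈ Ioi (0 : ℝ))).exists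
    have hδ : (0 : ℝ) < δ := hδ0
    have hJw : Tendsto (fun j => A + (1 / 2) ^ j - Φ (vol G (w j)) + M * gap G (w j)) atTop
        (𝓝 (A + 0 - Φ V + M * 0)) :=
      ((tendsto_const_nhds.add hgeo).sub hcΦ).add (hwg.const_mul M)
    have hlt : A + 0 - Φ V + M * 0 < δ := by linarith [eΦ, hAeq]
    have hch : Tendsto (fun j => |hs (vol G (w j)) - ((n : ℝ) - 1) * b| * (C₀ * (A + 1)))
        atTop (𝓝 0) := by
      have := ((((hΦ.cont_slope.continuousAt (Ioi_mem_nhds hV0)).tendsto.comp hwV).sub_const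
        (((n : ℝ) - 1) * b)).abs).mul_const (C₀ * (A + 1))
      simpa [hH] using this
    have hper : Tendsto (fun j => Φ (vol G (w j)) - M * gap G (w j)) atTop (𝓝 (Φ V - M * 0)) :=
      hcΦ.sub (hwg.const_mul M)
    obtain ⟨j, hj1, hj2, hj3, hj4, hj5, hj6⟩ :=
      ((hwV.eventually (eventually_ge_nhds (by linarith : V / 2 < V))).and
        (((tendsto_order.1 hJw).2 δ hlt).and
        ((hwg.eventually (eventually_le_nhds (lt_min hδ (mul_pos hx0 hx0)))).and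
        (((tendsto_order.1 hch).2 (x / 2) (half_pos hx0)).and
        (((tendsto_order.1 hper).1 (Φ V / 2) (by linarith)).and (eventually_ge_atTop k)))))).exists
    have hu := hw j
    have hgu : gap G (w j) ≤ x * x := hj3.trans (min_le_right _ _)
    have hPu : per G (w j) ≤ A + 1 :=
      (hwp j).trans (add_le_add le_rfl (pow_le_one₀ (by norm_num) (by norm_num)))
    have hlow := hJ (w j) hu (by linarith)
    refine ⟨j, hj6, hgu, by linarith, ?_⟩
    have hnm : NearMinV G D o Rd (A + 1) (V / 2) Φ M δ (w j) := by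
      refine ⟨hu, hPu, hj1, hj3.trans (min_le_left _ _), fun u' hu' hv2 => ?_⟩
      linarith [hJ u' hu' (by linarith), hwp j]
    have hCw : ∀ y z, D o y ≤ Rd → D o z ≤ Rd → Real.sqrt (2 * D y z) *
        wt (b ^ 2 * D y z, b * (Dir.scos G D (w j) z y * Real.sqrt (2 * D y z))) ≤ C₀ := by
      intro y z hy hz
      have hm : (b * Real.sqrt (2 * D y z), Dir.scos G D (w j) z y) ∈
          Icc (0 : ℝ) T ×ˢ Icc (-1 : ℝ) 1 :=
        ⟨⟨mul_nonneg hb.le (Real.sqrt_nonneg _), hTb y z hy hz⟩, Gen.scos_mem_Icc h _ z y⟩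
      refine le_trans (le_of_eq ?_)
        (((le_abs_self _).trans (hC' _ hm)).trans (hC₀ ▸ le_max_left C 0))
      have e1 : (b * Real.sqrt (2 * D y z)) ^ 2 / 2 = b ^ 2 * D y z := by
        rw [mul_pow, Real.sq_sqrt (by linarith [h.dist_nonneg y z])]; ring
      show _ = b * Real.sqrt (2 * D y z) / b *
        wt ((b * Real.sqrt (2 * D y z)) ^ 2 / 2, b * Real.sqrt (2 * D y z) * Dir.scos G D (w j) z y)
      rw [e1, mul_div_cancel_left₀ _ hb.ne']
      ring_nf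
    have hP0 := h.per_nonneg (w j)
    have hrows : ∀ y, D o y ≤ Rd → ∫ z, rowG G D (w j) wt b y z ∂Sharp.pm G (w j) ≤ x := by
      intro y hy
      refine (rowG_integral_le h (by omega) hb hwt hwpos hu hCw hy
        (hrow (w j) hnm y (dirCov G (w j) y) hy (conorm_dirCov_le h (w j) y))).trans ?_
      have := mul_le_mul_of_nonneg_left hPu
        (mul_nonneg (abs_nonneg (hs (vol G (w j)) - ((n : ℝ) - 1) * b)) hC₀0)
      linarith
    have hI := kerQ_le_rows h (by omega) hb hwt hwpos hu hx0.le hTb hwG hrows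
    have hp := pair_integral hn h he hu hcert.measurable_a hcert.a_nonpos hcert.a_bounded
      (continuous_cutK (n := n) (μ := μ) (ε := x) hwt) hb hβ hx0.le hx0 hx1 hTb
      hwC hwL
    rw [← hMm, ← hRr, ← hE, ← hbk] at hp
    refine (lintegral_slack_le h hu hwt hK'.mu_pos.le hb.le hx0.le).trans
      (ENNReal.ofReal_le_ofReal ?_)
    rw [le_div_iff₀ (mul_pos hRr0 hbk0)]
    have hg : gap G (w j) / x ≤ x := by rw [div_le_iff₀ hx0]; exact hgu
    obtain ⟨Pj, hPj⟩ : ∃ Pj, Pj = A + (1 / 2) ^ j := ⟨_, rfl⟩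
    have hPb : per G (w j) ≤ Pj := hPj ▸ hwp j
    rw [← hPj]
    have h1 := mul_le_mul_of_nonneg_left hI (mul_pos hRr0 hbk0).le
    have h2 : Rr * bk * ((2 + 3 * x) * per G (w j) ^ 2 + 2 * x * per G (w j)) ≤
        Rr * bk * ((2 + 3 * x) * Pj ^ 2 + 2 * x * Pj) := by
      refine mul_le_mul_of_nonneg_left (add_le_add ?_ ?_) (mul_pos hRr0 hbk0).le
      · exact mul_le_mul_of_nonneg_left (pow_le_pow_left₀ hP0 hPb 2) (by positivity)
      · exact mul_le_mul_of_nonneg_left hPb (by positivity)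
    have h3 : 2 * Mm * (x + E) * per G (w j) ≤ 2 * Mm * (x + E) * Pj :=
      mul_le_mul_of_nonneg_left hPb (by positivity)
    have h4 := mul_le_mul_of_nonneg_left (by linarith : vol G (w j) - x ≤ vol G (w j) - gap G (w j) / x)
      (by positivity : 0 ≤ 2 * Mm * β * b * (1 - x) ^ 2)
    linarith
  choose js hjs hgs hps hsl using hstep
  refine ⟨o, Rd, Φ V / 2, fun k => w (js k),
    ⟨hΩK, fun k => hw (js k), ?_⟩, half_pos hΦV0, hps, ?_⟩
  · exact squeeze_zero (fun k => integral_nonneg fun y => abs_nonneg _) (fun k => hwi (js k))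
      (hgeo.comp (tendsto_atTop_mono hjs tendsto_id))
  have hjlim : Tendsto js atTop atTop := tendsto_atTop_mono hjs tendsto_id
  have hx : Tendsto xs atTop (𝓝 0) := by
    rw [hxs]
    exact (tendsto_atTop_add_const_right _ (2 : ℝ) tendsto_natCast_atTop_atTop).inv_tendsto_atTop.congr
      fun k => by simp
  have hPl : Tendsto (fun k => A + (1 / 2 : ℝ) ^ js k) atTop (𝓝 A) := by
    simpa using (hgeo.comp hjlim).const_add A
  have hlimQ : Tendsto (fun k => ((Rr * bk * ((2 + 3 * xs k) * (A + (1 / 2) ^ js k) ^ 2 +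
            2 * xs k * (A + (1 / 2) ^ js k))) + 2 * Mm * (xs k + E) * (A + (1 / 2) ^ js k) -
          2 * Mm * β * b * (1 - xs k) ^ 2 * (vol G (w (js k)) - xs k)) / (Rr * bk)) atTop
      (𝓝 (((Rr * bk * ((2 + 3 * 0) * A ^ 2 + 2 * 0 * A)) + 2 * Mm * (0 + E) * A -
          2 * Mm * β * b * (1 - 0) ^ 2 * (V - 0)) / (Rr * bk))) :=
    ((((((hx.const_mul 3).const_add 2).mul (hPl.pow 2)).add ((hx.const_mul 2).mul hPl)).const_mul
      (Rr * bk)).add (((hx.add_const E).const_mul (2 * Mm)).mul hPl) |>.sub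
      ((((hx.const_sub 1).pow 2).const_mul (2 * Mm * β * b)).mul
        ((hwV.comp hjlim).sub hx))).div_const _
  have hval : Rr * bk * A * 2 = 2 * Mm := by
    rw [hAeq, eΦ, hmrad, hbk, hbd, inv_pow]
    field_simp
  have hbV : b * V = A / n := by
    rw [hAeq, eΦ, hbd, ← hVe, show t ^ n = t * t ^ (n - 1) by
      rw [← pow_succ', Nat.sub_add_cancel hn1]]
    field_simp
  have hfin : Rr * bk * (2 * A ^ 2) + 2 * Mm * E * A - 2 * Mm * β * b * V = 0 := by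
    calc _ = Rr * bk * A * 2 * A + 2 * Mm * E * A - 2 * Mm * β * (b * V) := by ring
      _ = _ := by rw [hval, hbV, hv']; ring
  have hQ0 : ((Rr * bk * ((2 + 3 * 0) * A ^ 2 + 2 * 0 * A)) + 2 * Mm * (0 + E) * A -
          2 * Mm * β * b * (1 - 0) ^ 2 * (V - 0)) / (Rr * bk) ≤ 0 := by
    refine div_nonpos_of_nonpos_of_nonneg ?_ (mul_pos hRr0 hbk0).le
    linarith
  have htop := ENNReal.tendsto_ofReal hlimQ
  rw [ENNReal.ofReal_of_nonpos hQ0] at htop
  exact tendsto_of_tendsto_of_tendsto_of_le_of_le tendsto_const_nhds htop (fun _ => zero_le) hsl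

end Vale.Agent.P219.CH.Flat.Strict
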