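import Vale.Agent.P219.Flat.Strict.Line

/-!
# P219: the pair integral for an arbitrary kernel, without curvature bound
-/

noncomputable section

open MeasureTheory Set Filter Topology Matrix
open scoped ENNReal

namespace Vale.Agent.P219.CH.Flat.Strict

open Relax (kernS halfInt wtBoth ofReal_abs_eq sign_mul_abs_div setLIntegral_Ioi_shift scos_line ijac ijac_pos ijac_le_one excess excess_nonneg ijacB excessB sq_dist_arg conorm_eq_zero_out)
open Gen (measurable_scos scos_mem_Icc gl pairW mass radial cmean cmean_nonneg)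
open Six (slp cosv vnorm flow line volM liou)
open Relax.LineInt (ordInt)

variable {n : ℕ} {G : (Fin n → ℝ) → Matrix (Fin n) (Fin n) ℝ}
  {D : (Fin n → ℝ) → (Fin n → ℝ) → ℝ} {e : Six.Phase n → Fin n → ℝ}
  {u : (Fin n → ℝ) → ℝ} {K : ℝ × ℝ × ℝ → ℝ} {s ε T η β κ : ℝ} {a : ℝ → ℝ}
  {o : Fin n → ℝ} {R : ℝ}

/-- The kernel per unit of the two perimeters with the exact Jacobian. -/
def kerK (G : (Fin n → ℝ) → Matrix (Fin n) (Fin n) ℝ) (D : (Fin n → ℝ) → (Fin n → ℝ) → ℝ)
    (u : (Fin n → ℝ) → ℝ) (K : ℝ × ℝ × ℝ → ℝ) (s ε : ℝ) (x y : Fin n → ℝ) : ℝ :=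
  (K (s * Real.sqrt (2 * D x y), Dir.scos G D u y x, Dir.scos G D u x y) + ε) *
    ijac G D x y

lemma measurable_kerK (h : IsCH G D) (hu : ContDiff ℝ 1 u) (hK : Continuous K) :
    Measurable fun z : (Fin n → ℝ) × (Fin n → ℝ) => kerK G D u K s ε z.1 z.2 := by
  have hd := Gen.measurable_scos h hu
  have hc : Measurable fun z : (Fin n → ℝ) × (Fin n → ℝ) => Dir.scos G D u z.2 z.1 := by
    simpa only [Function.comp_def, Prod.fst_swap, Prod.snd_swap] using
      hd.comp (measurable_swap (α := Fin n → ℝ) (β := Fin n → ℝ))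
  have hr : Measurable fun z : (Fin n → ℝ) × (Fin n → ℝ) => s * Real.sqrt (2 * D z.1 z.2) :=
    ((h.continuous_D.measurable.const_mul 2).sqrt).const_mul s
  exact ((hK.measurable.comp
    (hr.prodMk (hc.prodMk hd))).add_const ε).mul (by simpa only [ijacB_flat] using (Relax.continuous_ijacB h 0).measurable : Measurable fun z : (Fin n → ℝ) × (Fin n → ℝ) => ijac G D z.1 z.2)

/-- The inequality over the phase space, before the passage to real integrals. -/
theorem pair_lintegral [NeZero n] (hn : 2 ≤ n) (h : IsCH G D) (he : Six.IsExp G D e)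
    (hu : Comp {y | D o y ≤ R} u) (ha : Measurable a) (ha0 : ∀ c ∈ Icc (0 : ℝ) 1, a c ≤ 0)
    (haB : ∃ B, ∀ c ∈ Icc (0 : ℝ) 1, -B ≤ a c) (hK : Continuous K) (hs : 0 < s) (hβ : 0 ≤ β)
    (hε : 0 ≤ ε) (hη : 0 < η) (hη1 : η < 1)
    (hT : ∀ x y, D o x ≤ R → D o y ≤ R → s * Real.sqrt (2 * D x y) ≤ T)
    (hG : CritK ε T K) (hL : LineK n a β ε T K) :
    ENNReal.ofReal (s ^ (n - 1)) * (ENNReal.ofReal (radial n) *
          ∫⁻ x, ∫⁻ y, ENNReal.ofReal (-kerK G D u K s ε x y) ∂Sharp.pm G u ∂Sharp.pm G u) +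
        ENNReal.ofReal (2 * β * s * (1 - η) ^ 2) *
          ENNReal.ofReal (mass n * (vol G u - gap G u / η)) ≤
      ENNReal.ofReal (s ^ (n - 1)) * (ENNReal.ofReal (radial n) *
          ∫⁻ x, ∫⁻ y, ENNReal.ofReal (kerK G D u K s ε x y) ∂Sharp.pm G u ∂Sharp.pm G u) +
        2 * ENNReal.ofReal (mass n * (ε + cmean n fun c => -a c) * per G u) := by
  have hflow := Six.flowPin n
  obtain ⟨B, haB⟩ := haB
  have hP := measurable_pairK (s := s) (ε := ε) h hu.1 hK
  have hNm : Measurable fun z : (Fin n → ℝ) × (Fin n → ℝ) => -pairK G D u K s ε z.1 z.2 := hP.neg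
  have hKQ := measurable_kerK (s := s) (ε := ε) h hu.1 hK
  set O : Set (Fin n → ℝ) := {x | 1 - η < u x}
  have hOm : Measurable fun p : Six.Phase n => (O.indicator 1 p.1 : ℝ≥0∞) :=
    (measurable_one.indicator (isOpen_lt continuous_const hu.1.continuous).measurableSet).comp
      measurable_fst
  have hposm := Relax.measurable_halfInt (s := 0) h he hP
  have hnegm := Relax.measurable_halfInt (s := 0) (f := fun x y => -pairK G D u K s ε x y) h he hNm
  have hW : ∀ σ : ℝ, Measurable fun p : Six.Phase n =>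
      ENNReal.ofReal (σ * slp u p) * pairW G u a ε p := fun σ =>
    ((Gen.continuous_slp hu.1).const_mul σ).measurable.ennreal_ofReal.mul
      (Gen.measurable_pairW h hu.1 ha ε)
  have hwm : Measurable (wtBoth G u a ε) := (hW 1).add (hW (-1))
  have hzero : ∀ (f : (Fin n → ℝ) → (Fin n → ℝ) → ℝ) (p : Six.Phase n),
      (∀ y, f p.1 y = 0) → halfInt G e 0 f p = 0 := fun f p hf => by simp [halfInt, hf]
  have hout : ∀ p : Six.Phase n, R < D o p.1 →
      (∀ y, pairK G D u K s ε p.1 y = 0) ∧ slp u p = 0 ∧ p.1 ∉ O := fun p hp => by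
    have hn' : p.1 ∉ tsupport u := fun hc => (not_le.2 hp) (hu.2.1 hc)
    refine ⟨fun y => by simp [pairK, conorm_eq_zero_out hu (not_le.2 hp)],
      by simp [slp, cd_eq_zero_of_notMem hn'], fun hc => hn' (subset_tsupport u ?_)⟩
    have : 1 - η < u p.1 := hc
    simp only [Function.mem_support]
    linarith
  have hline := Six.lintegral_le_of_lines (by omega) h he hflow o R
    (F := fun p => ENNReal.ofReal (s ^ (n - 1)) *
        halfInt G e 0 (fun x y => -pairK G D u K s ε x y) p +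
      ENNReal.ofReal (2 * β * s * (1 - η) ^ 2) * O.indicator 1 p.1)
    (H := fun p => ENNReal.ofReal (s ^ (n - 1)) * halfInt G e 0 (pairK G D u K s ε) p +
      wtBoth G u a ε p)
    ((hnegm.const_mul _).add (hOm.const_mul _)) ((hposm.const_mul _).add hwm)
    (fun p hp => by
      obtain ⟨h1, -, h3⟩ := hout p hp
      simp [hzero (fun x y => -pairK G D u K s ε x y) p (fun y => by simp [h1 y]),
        Set.indicator_of_notMem h3])
    (fun p hp => by
      obtain ⟨h1, h2, -⟩ := hout p hp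
      simp [hzero _ p h1, wtBoth, h2])
    fun p hp => line_le hflow h he hu ha hK hs hβ hη hη1 hT hG hL p hp
  rw [lintegral_add_left (hnegm.const_mul _), lintegral_add_left (hposm.const_mul _),
    lintegral_const_mul _ hnegm, lintegral_const_mul _ hposm, lintegral_const_mul _ hOm,
    Relax.lintegral_halfInt (s := 0) hn h he hu.1 hKQ (fun x y => by simp only [pairK, kerK, ijacB_flat]; ring) hP,
    Relax.lintegral_halfInt (s := 0) hn h he hu.1 (K := fun x y => -kerK G D u K s ε x y) hKQ.neg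
      (fun x y => by simp only [pairK, kerK, ijacB_flat]; ring) hNm] at hline
  refine le_trans (add_le_add le_rfl (mul_le_mul_right (Relax.le_lintegral_above hn h hu hη hη1) _))
    (hline.trans (add_le_add le_rfl ?_))
  simp only [wtBoth]
  rw [lintegral_add_left (hW 1), two_mul]
  exact add_le_add
    (Gen.lintegral_weight_le hn (Gen.momentPin n) h hu ha ha0 haB hε (Or.inl rfl))
    (Gen.lintegral_weight_le hn (Gen.momentPin n) h hu ha ha0 haB hε (Or.inr rfl))

/-- The kernel is integrable for the product of the two perimeters. -/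
lemma integrable_kerK (h : IsCH G D) (hu : Comp {y | D o y ≤ R} u)
    (hK : Continuous K) (hs : 0 ≤ s) :
    Integrable (fun z : (Fin n → ℝ) × (Fin n → ℝ) => kerK G D u K s ε z.1 z.2)
      ((Sharp.pm G u).prod (Sharp.pm G u)) := by
  have hKc := h.proper o R
  have := Sharp.isFiniteMeasure_pm h hKc hu
  have hν := Sharp.ae_mem_pm h hKc hu
  obtain ⟨B, hB⟩ := (hKc.prod hKc).bddAbove_image h.continuous_D.continuousOn
  obtain ⟨C, hC⟩ := ((isCompact_Icc (a := (0 : ℝ)) (b := s * Real.sqrt (2 * max B 0))).prod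
    ((isCompact_Icc (a := (-1 : ℝ)) (b := 1)).prod
      (isCompact_Icc (a := (-1 : ℝ)) (b := 1)))).exists_bound_of_continuousOn
    (hK.add (continuous_const (y := ε))).continuousOn
  refine Integrable.of_bound (measurable_kerK h hu.1 hK).aestronglyMeasurable C ?_
  filter_upwards [Measure.quasiMeasurePreserving_fst.ae hν,
    Measure.quasiMeasurePreserving_snd.ae hν] with z hz1 hz2
  have hm : (s * Real.sqrt (2 * D z.1 z.2), Dir.scos G D u z.2 z.1, Dir.scos G D u z.1 z.2) ∈
      Icc (0 : ℝ) (s * Real.sqrt (2 * max B 0)) ×ˢ (Icc (-1 : ℝ) 1 ×ˢ Icc (-1 : ℝ) 1) :=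
    ⟨⟨mul_nonneg hs (Real.sqrt_nonneg _), mul_le_mul_of_nonneg_left (Real.sqrt_le_sqrt (by
      linarith [(hB ⟨z, ⟨hz1, hz2⟩, rfl⟩).trans (le_max_left B 0)])) hs⟩,
      Gen.scos_mem_Icc h u _ _, Gen.scos_mem_Icc h u _ _⟩
  have h1 := hC _ hm
  rw [kerK, norm_mul, Real.norm_of_nonneg (ijac_pos h _ _).le]
  exact (mul_le_of_le_one_right (norm_nonneg _) (ijac_le_one h _ _)).trans h1

/-- The pair integral, in real numbers. -/
theorem pair_integral [NeZero n] (hn : 2 ≤ n) (h : IsCH G D)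
    (he : Six.IsExp G D e) (hu : Comp {y | D o y ≤ R} u) (ha : Measurable a)
    (ha0 : ∀ c ∈ Icc (0 : ℝ) 1, a c ≤ 0) (haB : ∃ B, ∀ c ∈ Icc (0 : ℝ) 1, -B ≤ a c)
    (hK : Continuous K) (hs : 0 < s) (hβ : 0 ≤ β) (hε : 0 ≤ ε) (hη : 0 < η) (hη1 : η < 1)
    (hT : ∀ x y, D o x ≤ R → D o y ≤ R → s * Real.sqrt (2 * D x y) ≤ T)
    (hG : CritK ε T K) (hL : LineK n a β ε T K) :
    mass n * (2 * β * s * (1 - η) ^ 2 * (vol G u - gap G u / η) -
        2 * (ε + cmean n fun c => -a c) * per G u) ≤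
      radial n * s ^ (n - 1) * ∫ z : (Fin n → ℝ) × (Fin n → ℝ), kerK G D u K s ε z.1 z.2
        ∂((Sharp.pm G u).prod (Sharp.pm G u)) := by
  have key := pair_lintegral hn h he hu ha ha0 haB hK hs hβ hε hη hη1 hT hG hL
  have := Sharp.isFiniteMeasure_pm h (h.proper o R) hu
  set μ := Sharp.pm G u
  have hi := integrable_kerK (ε := ε) h hu hK hs.le
  have hKQ := measurable_kerK (s := s) (ε := ε) h hu.1 hK
  rw [← lintegral_prod (fun z : (Fin n → ℝ) × (Fin n → ℝ) =>
      ENNReal.ofReal (kerK G D u K s ε z.1 z.2)) hKQ.ennreal_ofReal.aemeasurable,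
    ← lintegral_prod (fun z : (Fin n → ℝ) × (Fin n → ℝ) =>
      ENNReal.ofReal (-kerK G D u K s ε z.1 z.2)) hKQ.neg.ennreal_ofReal.aemeasurable] at key
  have hM := (Gen.momentPin n hn).1
  have hE : 0 ≤ cmean n fun c => -a c := cmean_nonneg hM fun c hc => by linarith [ha0 c hc]
  have hR : 0 ≤ radial n :=
    setIntegral_nonneg measurableSet_Ioi fun r hr => mul_nonneg (pow_nonneg (le_of_lt hr) _)
      (Real.exp_pos _).le
  have hP := h.per_nonneg u
  rw [integral_eq_lintegral_pos_part_sub_lintegral_neg_part hi]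
  obtain ⟨p, hp⟩ : ∃ p, p = ∫⁻ z : (Fin n → ℝ) × (Fin n → ℝ),
      ENNReal.ofReal (kerK G D u K s ε z.1 z.2) ∂μ.prod μ := ⟨_, rfl⟩
  obtain ⟨q, hq⟩ : ∃ q, q = ∫⁻ z : (Fin n → ℝ) × (Fin n → ℝ),
      ENNReal.ofReal (-kerK G D u K s ε z.1 z.2) ∂μ.prod μ := ⟨_, rfl⟩
  have hpf : p ≠ ∞ := hp ▸ ne_of_lt ((lintegral_mono fun z =>
    ENNReal.ofReal_le_ofReal (le_abs_self _)).trans_lt (by
      simpa [hasFiniteIntegral_iff_norm, Real.norm_eq_abs] using hi.hasFiniteIntegral))
  have hqf : q ≠ ∞ := hq ▸ ne_of_lt ((lintegral_mono fun z =>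
    ENNReal.ofReal_le_ofReal (neg_le_abs _)).trans_lt (by
      simpa [hasFiniteIntegral_iff_norm, Real.norm_eq_abs] using hi.hasFiniteIntegral))
  rw [← hp, ← hq] at key ⊢
  rw [← ENNReal.ofReal_toReal hpf, ← ENNReal.ofReal_toReal hqf,
    ← ENNReal.ofReal_mul hR, ← ENNReal.ofReal_mul hR,
    ← ENNReal.ofReal_mul (by positivity), ← ENNReal.ofReal_mul (by positivity),
    ← ENNReal.ofReal_mul (by positivity)] at key
  have hW0 : 0 ≤ mass n * (ε + cmean n fun c => -a c) * per G u := by positivity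
  rw [two_mul (ENNReal.ofReal (mass n * (ε + cmean n fun c => -a c) * per G u)),
    ← ENNReal.ofReal_add hW0 hW0,
    ← ENNReal.ofReal_add (show 0 ≤ s ^ (n - 1) * (radial n * p.toReal) by positivity)
      (add_nonneg hW0 hW0)] at key
  obtain ⟨X, hX⟩ : ∃ X, X = 2 * β * s * (1 - η) ^ 2 * (mass n * (vol G u - gap G u / η)) := ⟨_, rfl⟩
  rw [← hX] at key
  have key' : s ^ (n - 1) * (radial n * q.toReal) + X ≤ s ^ (n - 1) * (radial n * p.toReal) +
      (mass n * (ε + cmean n fun c => -a c) * per G u +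
        mass n * (ε + cmean n fun c => -a c) * per G u) := by
    rcases le_total 0 X with hX0 | hX0
    · rw [← ENNReal.ofReal_add (by positivity) hX0] at key
      exact (ENNReal.ofReal_le_ofReal_iff (by positivity)).1 key
    · rw [ENNReal.ofReal_of_nonpos hX0, add_zero] at key
      have := (ENNReal.ofReal_le_ofReal_iff (by positivity)).1 key
      linarith
  rw [hX] at key'
  linarith

end Vale.Agent.P219.CH.Flat.Strict
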