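import Vale.Agent.P219.Flat.Strict.LineOf
import Vale.Agent.P219.Flat.Strict.Int

/-!
# P219: strict certificates without curvature bound

The slack `kap μ` is zero at a positive distance `r` only for `r = 2 c = 2 d`. A certificate is
strict when it stays one after the slack is taken off the symmetrised kernel up to `ε`.
-/

noncomputable section

open MeasureTheory Set Filter Topology

namespace Vale.Agent.P219.CH.Flat.Strict

variable {n : ℕ}

/-- The slack. -/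
def kap (μ : ℝ) (q : ℝ × ℝ × ℝ) : ℝ :=
  μ * |q.1| * ((q.1 - 2 * q.2.1) ^ 2 + (q.1 - 2 * q.2.2) ^ 2) / (2 * (|q.1| + 2) ^ 3)

/-- The symmetrised kernel less the slack. -/
def cutK (n : ℕ) (μ ε : ℝ) (w : ℝ × ℝ → ℝ) (q : ℝ × ℝ × ℝ) : ℝ :=
  sym n w q.1 q.2.1 q.2.2 - max (kap μ q - ε) 0

/-- A strict certificate of the sharp constant in dimension `n`. -/
structure StrictAt (n : ℕ) [NeZero n] (a : ℝ → ℝ) (β μ : ℝ) : Prop where
  cert : Cert n a β
  mu_pos : 0 < μ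
  weight : ∀ ε T : ℝ, 0 < ε → 0 < T → ∃ w : ℝ × ℝ → ℝ, ContDiff ℝ 1 w ∧
    (∀ p q, 0 ≤ p → q ^ 2 ≤ 2 * p → 0 < w (p, q)) ∧ GainOK n ε T w ∧
    CritK ε T (cutK n μ ε w) ∧ LineK n a β ε T (cutK n μ ε w)

lemma continuous_kap (μ : ℝ) : Continuous (kap μ) := by
  unfold kap
  exact Continuous.div (by fun_prop) (by fun_prop) fun q => by positivity

lemma kap_nonneg {μ : ℝ} (hμ : 0 ≤ μ) (q : ℝ × ℝ × ℝ) : 0 ≤ kap μ q := by
  unfold kap
  positivity

lemma continuous_cutK {μ ε : ℝ} {w : ℝ × ℝ → ℝ} (hw : ContDiff ℝ 1 w) :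
    Continuous (cutK n μ ε w) :=
  (continuous_sym hw).sub (((continuous_kap μ).sub continuous_const).max continuous_const)

lemma kap_comm (μ r c d : ℝ) : kap μ (r, c, d) = kap μ (r, d, c) := by
  simp only [kap, add_comm ((r - 2 * c) ^ 2)]

lemma cutK_comm (μ ε : ℝ) (w : ℝ × ℝ → ℝ) (r c d : ℝ) :
    cutK n μ ε w (r, c, d) = cutK n μ ε w (r, d, c) := by
  simp only [cutK, kap_comm μ r c d, sym_comm w r c d]

/-- The slack vanishes only at the contact. -/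
lemma contact {μ r c d : ℝ} (hμ : 0 < μ) (hr : 0 < r) (h : kap μ (r, c, d) = 0) : r = 2 * c := by
  have hden : (0 : ℝ) < 2 * (|r| + 2) ^ 3 := by positivity
  rw [kap, div_eq_zero_iff, or_iff_left hden.ne', mul_eq_zero,
    or_iff_right (mul_pos hμ (abs_pos.2 hr.ne')).ne'] at h
  have h1 := sq_nonneg (r - 2 * d)
  have h2 : (r - 2 * c) ^ 2 = 0 := le_antisymm (by linarith) (sq_nonneg _)
  linarith [pow_eq_zero_iff two_ne_zero |>.1 h2]

lemma kap_zero (μ c d : ℝ) : kap μ (0, c, d) = 0 := by simp [kap]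

/-- The slack is at most linear in the distance and at most a multiple of the squared distance to
the contact. -/
lemma kap_le {μ r c d : ℝ} (hμ : 0 ≤ μ) (hr : 0 ≤ r) (hc : c ∈ Icc (-1 : ℝ) 1)
    (hd : d ∈ Icc (-1 : ℝ) 1) :
    kap μ (r, c, d) ≤ μ * r ∧ kap μ (r, c, d) ≤ μ ∧
      r ^ 2 * kap μ (r, c, d) ≤ μ * (((r - 2 * c) ^ 2 + (r - 2 * d) ^ 2) / 2) := by
  obtain ⟨t, ht⟩ : ∃ t, t = r + 2 := ⟨_, rfl⟩
  have ht2 : 2 ≤ t := by linarith
  obtain ⟨S, hS⟩ : ∃ S, S = (r - 2 * c) ^ 2 + (r - 2 * d) ^ 2 := ⟨_, rfl⟩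
  have hS0 : 0 ≤ S := hS ▸ by positivity
  have b1 : ∀ x ∈ Icc (-1 : ℝ) 1, (r - 2 * x) ^ 2 ≤ t ^ 2 := fun x hx =>
    sq_le_sq' (by linarith [hx.2]) (by linarith [hx.1])
  have hS2 : S ≤ 2 * t ^ 2 := by rw [hS]; linarith [b1 c hc, b1 d hd]
  have e : kap μ (r, c, d) = μ * r * S / (2 * t ^ 3) := by
    simp only [kap, abs_of_nonneg hr, hS, ht]
  have hden : 0 < 2 * t ^ 3 := by positivity
  have h1 : kap μ (r, c, d) ≤ μ * r / t := by
    rw [e, div_le_div_iff₀ hden (by linarith)]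
    calc μ * r * S * t ≤ μ * r * (2 * t ^ 2) * t := by gcongr
      _ = μ * r * (2 * t ^ 3) := by ring
  refine ⟨h1.trans (div_le_self (mul_nonneg hμ hr) (by linarith)), h1.trans ?_, ?_⟩
  · rw [div_le_iff₀ (by linarith)]
    exact mul_le_mul_of_nonneg_left (by linarith) hμ
  · rw [e, ← hS, ← mul_div_assoc, div_le_iff₀ hden]
    calc r ^ 2 * (μ * r * S) = μ * S * r ^ 3 := by ring
      _ ≤ μ * S * t ^ 3 := by gcongr; linarith
      _ = _ := by ring

end Vale.Agent.P219.CH.Flat.Strict
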