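import Vale.Agent.P219.Flat.Strict.Line
import Vale.Agent.P219.Flat.LineOf
import Vale.Agent.P219.Relax.LineOf

/-!
# P219: the whole-line condition of an arbitrary kernel from pointwise facts
-/

noncomputable section

open MeasureTheory Set Filter Topology
open scoped ENNReal

namespace Vale.Agent.P219.CH.Flat.Strict

open Relax (le_sum_of_partner le_sum_chain le_level_outside crossings)

variable {n : ℕ}

lemma phiK_comm {ε : ℝ} {K : ℝ × ℝ × ℝ → ℝ} (hsy : ∀ r c d, K (r, c, d) = K (r, d, c))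
    (r c d : ℝ) : phiK n ε K r c d = phiK n ε K r d c := by
  simp only [phiK, hsy r c d, mul_comm c d]

lemma crossK_comm (ε : ℝ) (K : ℝ × ℝ × ℝ → ℝ) (g : ℝ → ℝ) (σ : ℝ) (c : ℝ → ℝ) (t t' : ℝ) :
    crossK n ε K g σ c t t' = crossK n ε K g σ c t' t := by
  simp only [crossK, min_comm t t', max_comm t t', abs_sub_comm t t']

/-- The whole-line condition from four pointwise facts: the value is nonpositive, the symmetrised
kernel of two inward cosines is above the two values, a pair with one outward cosine pays for any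
shorter pair sharing a cosine, and pairs with an outward cosine are nonnegative. -/
theorem lineK_of_pointwise {β ε T : ℝ} {a : ℝ → ℝ} {K : ℝ × ℝ × ℝ → ℝ}
    (hsy : ∀ r c d, K (r, c, d) = K (r, d, c))
    (hβ : 0 ≤ β) (hε : 0 ≤ ε) (ha : ∀ c ∈ Ioc (0 : ℝ) 1, a c ≤ 0)
    (hF : ∀ r c d, r ∈ Ioc 0 T → c ∈ Ioc (0 : ℝ) 1 → d ∈ Ioc (0 : ℝ) 1 →
      a c / c + a d / d + 2 * β * r - 2 * ε ≤ phiK n ε K r c d)
    (hT : ∀ r p c d e, 0 < r → r ≤ p → p ≤ T → c ∈ Ioc (0 : ℝ) 1 → d ∈ Ioc (0 : ℝ) 1 →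
      e ∈ Ioc (0 : ℝ) 1 → 0 ≤ phiK n ε K r c d + phiK n ε K p c (-e))
    (hM : ∀ r c d, r ∈ Ioc 0 T → c ∈ Ioc (0 : ℝ) 1 → d ∈ Ioc (0 : ℝ) 1 →
      0 ≤ phiK n ε K r c (-d) ∧ 0 ≤ phiK n ε K r (-c) (-d)) :
    LineK n a β ε T K := by
  intro g σ lo hi S U c hg hsupp hσ hlo hlh _hhi hS hU hder hc hdist
  have hd : ∀ t, DifferentiableAt ℝ g t := fun t => hg.differentiable one_ne_zero t
  have hA : ∀ t ∈ S ∪ U, a (c t) / c t ≤ 0 := fun t ht =>
    div_nonpos_of_nonpos_of_nonneg (ha _ (hc t ht)) (hc t ht).1.le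
  have hA' : ∀ t ∈ S ∪ U, a (c t) / c t - ε ≤ 0 := fun t ht => by linarith [hA t ht]
  rcases U.eq_empty_or_nonempty with hUe | hUn
  · have hv : {t | hi < g t} = (∅ : Set ℝ) := Set.eq_empty_iff_forall_notMem.2 fun t ht => by
      obtain ⟨⟨z, hz, -⟩, -⟩ := le_level_outside hg.continuous hsupp (hlo.trans hlh) hU ht
      simp [hUe] at hz
    have h1 := Finset.sum_nonpos (s := S) (f := fun t => a (c t) / c t - ε)
      fun t ht => hA' t (Finset.mem_union_left _ ht)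
    simpa [hUe, hv] using h1
  have hloU : ∀ t ∈ U, lo < g t := fun t ht => by rw [(hU t).1 ht]; exact hlh
  obtain ⟨t₀, ht₀⟩ := hUn
  obtain ⟨⟨z₀, hz₀, -⟩, -⟩ := le_level_outside hg.continuous hsupp hlo hS (hloU t₀ ht₀)
  have hSn : S.Nonempty := ⟨z₀, hz₀⟩
  have hUn : U.Nonempty := ⟨t₀, ht₀⟩
  obtain ⟨sup₁, sdn₁, sp, ss⟩ := crossings hd hsupp hlo hS
    (fun t ht => hder t (Finset.mem_union_left _ ht)) hSn
  obtain ⟨uup₁, udn₁, upp, us⟩ := crossings hd hsupp (hlo.trans hlh) hU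
    (fun t ht => hder t (Finset.mem_union_right _ ht)) hUn
  set a₁ := S.min' hSn
  set b₁ := S.max' hSn
  set p₁ := U.min' hUn
  set q₁ := U.max' hUn
  have ha₁ : a₁ ∈ S := S.min'_mem hSn
  have hb₁ : b₁ ∈ S := S.max'_mem hSn
  have hp₁ : p₁ ∈ U := U.min'_mem hUn
  have hq₁ : q₁ ∈ U := U.max'_mem hUn
  have hap : a₁ < p₁ := by
    obtain ⟨⟨z, hz, hz'⟩, -⟩ := le_level_outside hg.continuous hsupp hlo hS (hloU p₁ hp₁)
    exact (S.min'_le z hz).trans_lt hz'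
  have hqb : q₁ < b₁ := by
    obtain ⟨-, z, hz, hz'⟩ := le_level_outside hg.continuous hsupp hlo hS (hloU q₁ hq₁)
    exact hz'.trans_le (S.le_max' z hz)
  have hpq : p₁ ≤ q₁ := U.min'_le q₁ hq₁
  set f := fun x y : ℝ => crossK n ε K g σ c x y
  have hf : ∀ {x y : ℝ}, x < y → f x y = phiK n ε K (σ * (y - x)) (Real.sign (deriv g x) * c x)
      (-(Real.sign (deriv g y) * c y)) := fun {x y} h => by
    simp only [f, crossK, min_eq_left h.le, max_eq_right h.le, abs_of_pos (sub_pos.2 h)]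
  have hup : ∀ {x : ℝ}, 0 < deriv g x → Real.sign (deriv g x) = 1 := Real.sign_of_pos
  have hdn : ∀ {x : ℝ}, x ∈ S ∪ U → ¬ 0 < deriv g x → Real.sign (deriv g x) = -1 := fun hx h =>
    Real.sign_of_neg (lt_of_le_of_ne (not_lt.1 h) (hder _ hx))
  have hr : ∀ {x y : ℝ}, x ∈ S ∪ U → y ∈ S ∪ U → x < y → σ * (y - x) ∈ Ioc 0 T := fun {x y} hx hy h =>
    ⟨mul_pos hσ (sub_pos.2 h), by simpa [abs_of_pos (sub_pos.2 h)] using hdist x hx y hy⟩
  have hpos : ∀ x ∈ S ∪ U, ∀ y ∈ S ∪ U, x < y → ¬ (0 < deriv g x ∧ ¬ 0 < deriv g y) → 0 ≤ f x y := by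
    intro x hx y hy hxy hns
    have hm := hM _ _ _ (hr hx hy hxy) (hc x hx) (hc y hy)
    rw [hf hxy]
    by_cases hux : 0 < deriv g x
    · have huy : 0 < deriv g y := by_contra fun h => hns ⟨hux, h⟩
      rw [hup hux, hup huy, one_mul, one_mul]
      exact hm.1
    · rw [hdn hx hux]
      by_cases huy : 0 < deriv g y
      · rw [hup huy, one_mul, neg_one_mul]
        exact hm.2
      · rw [hdn hy huy, neg_one_mul, neg_one_mul, neg_neg, phiK_comm hsy]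
        exact (hM _ _ _ (hr hx hy hxy) (hc y hy) (hc x hx)).1
  have hT₁ : ∀ x ∈ S ∪ U, ∀ y ∈ S ∪ U, ∀ y' ∈ S ∪ U, x < y → y < y' → 0 < deriv g x →
      ¬ 0 < deriv g y → 0 < deriv g y' → 0 ≤ f x y + f x y' := by
    intro x hx y hy y' hy' h1 h2 u1 u2 u3
    rw [hf h1, hf (h1.trans h2), hup u1, hdn hy u2, hup u3]
    simp only [one_mul, neg_one_mul, neg_neg]
    exact hT _ _ _ _ _ (hr hx hy h1).1 (by nlinarith) (hr hx hy' (h1.trans h2)).2
      (hc x hx) (hc y hy) (hc y' hy')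
  have hT₂ : ∀ x ∈ S ∪ U, ∀ x' ∈ S ∪ U, ∀ y ∈ S ∪ U, x' < x → x < y → ¬ 0 < deriv g x' →
      0 < deriv g x → ¬ 0 < deriv g y → 0 ≤ f x y + f x' y := by
    intro x hx x' hx' y hy h1 h2 u1 u2 u3
    rw [hf h2, hf (h1.trans h2), hup u2, hdn hx' u1, hdn hy u3]
    simp only [one_mul, neg_one_mul, neg_neg]
    rw [phiK_comm hsy _ (c x), phiK_comm hsy _ (-c x')]
    exact hT _ _ _ _ _ (hr hx hy h2).1 (by nlinarith) (hr hx' hy (h1.trans h2)).2
      (hc y hy) (hc x hx) (hc x' hx')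
  have hS' := fun t (ht : t ∈ S) => Finset.mem_union_left U ht
  have hU' := fun t (ht : t ∈ U) => Finset.mem_union_right S ht
  have hSU := le_sum_chain S U (fun t => 0 < deriv g t) f ha₁ hq₁
    (fun y hy => U.le_max' y hy) sup₁ (not_lt.2 udn₁.le) (hap.trans_le hpq) sp us
    (fun x hx y hy => hpos x (hS' x hx) y (hU' y hy))
    (fun x hx y hy y' hy' => hT₁ x (hS' x hx) y (hU' y hy) y' (hU' y' hy'))
    (fun x hx x' hx' y hy => hT₂ x (hS' x hx) x' (hS' x' hx') y (hU' y hy))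
  have hUS := le_sum_chain U S (fun t => 0 < deriv g t) f hp₁ hb₁
    (fun y hy => S.le_max' y hy) uup₁ (not_lt.2 sdn₁.le) (hpq.trans_lt hqb) upp ss
    (fun x hx y hy => hpos x (hU' x hx) y (hS' y hy))
    (fun x hx y hy y' hy' => hT₁ x (hU' x hx) y (hS' y hy) y' (hS' y' hy'))
    (fun x hx x' hx' y hy => hT₂ x (hU' x hx) x' (hU' x' hx') y (hS' y hy))
  have htot : ∑ t ∈ S, ∑ t' ∈ U, crossK n ε K g σ c t t' =
      (∑ x ∈ S, ∑ y ∈ U, if x < y then f x y else 0) +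
        ∑ x ∈ U, ∑ y ∈ S, if x < y then f x y else 0 := by
    rw [Finset.sum_comm (s := U) (t := S), ← Finset.sum_add_distrib]
    refine Finset.sum_congr rfl fun x hx => ?_
    rw [← Finset.sum_add_distrib]
    refine Finset.sum_congr rfl fun y hy => ?_
    have hne : x ≠ y := fun h => by
      have h1 := (hS x).1 hx
      have h2 := (hU y).1 hy
      rw [h] at h1
      linarith
    rcases lt_or_gt_of_ne hne with h | h
    · simp [f, h, not_lt.2 h.le]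
    · simp [f, h, not_lt.2 h.le, crossK_comm ε K g σ c x y]
  have hF₁ := hF _ _ _ (hr (hS' _ ha₁) (hU' _ hq₁) (hap.trans_le hpq)) (hc _ (hS' _ ha₁))
    (hc _ (hU' _ hq₁))
  have hF₂ := hF _ _ _ (hr (hU' _ hp₁) (hS' _ hb₁) (hpq.trans_lt hqb)) (hc _ (hU' _ hp₁))
    (hc _ (hS' _ hb₁))
  have e₁ : f a₁ q₁ = phiK n ε K (σ * (q₁ - a₁)) (c a₁) (c q₁) := by
    rw [hf (hap.trans_le hpq), hup sup₁, hdn (hU' _ hq₁) (not_lt.2 udn₁.le)]
    simp
  have e₂ : f p₁ b₁ = phiK n ε K (σ * (b₁ - p₁)) (c p₁) (c b₁) := by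
    rw [hf (hpq.trans_lt hqb), hup uup₁, hdn (hS' _ hb₁) (not_lt.2 sdn₁.le)]
    simp
  have two : ∀ V : Finset ℝ, V ⊆ S ∪ U → ∀ x ∈ V, ∀ y ∈ V, x ≠ y →
      ∑ t ∈ V, (a (c t) / c t - ε) ≤ (a (c x) / c x - ε) + (a (c y) / c y - ε) := by
    intro V hV x hx y hy hxy
    rw [← Finset.sum_pair (f := fun t => a (c t) / c t - ε) hxy]
    exact Finset.sum_le_sum_of_subset_of_nonpos'
      (Finset.insert_subset hx (Finset.singleton_subset_iff.2 hy))
      (fun t ht _ => hA' t (hV ht))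
  have hAS := two S Finset.subset_union_left a₁ ha₁ b₁ hb₁ (hap.trans_le hpq |>.trans hqb).ne
  have hpq' : p₁ ≠ q₁ := fun h => by
    rw [h] at uup₁
    linarith
  have hAU := two U Finset.subset_union_right p₁ hp₁ q₁ hq₁ hpq'
  have hvol : (volume {t | hi < g t}).toReal ≤ q₁ - p₁ := by
    refine (ENNReal.toReal_mono measure_Icc_lt_top.ne
      (measure_mono (t := Icc p₁ q₁) fun t ht => ?_)).trans_eq ?_
    · obtain ⟨⟨z, hz, hz'⟩, z', hz₂, hz₂'⟩ :=
        le_level_outside hg.continuous hsupp (hlo.trans hlh) hU ht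
      exact ⟨((U.min'_le z hz).trans_lt hz').le, (hz₂'.trans_le (U.le_max' z' hz₂)).le⟩
    · rw [Real.volume_Icc, ENNReal.toReal_ofReal (sub_nonneg.2 hpq)]
  have hm : 4 * β * σ * (volume {t | hi < g t}).toReal ≤
      2 * β * (σ * (q₁ - a₁)) + 2 * β * (σ * (b₁ - p₁)) := by
    have hk : 0 ≤ β * σ := mul_nonneg hβ hσ.le
    nlinarith [mul_le_mul_of_nonneg_left hvol hk, mul_le_mul_of_nonneg_left hap.le hk,
      mul_le_mul_of_nonneg_left hqb.le hk]
  rw [htot]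
  linarith

end Vale.Agent.P219.CH.Flat.Strict
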