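import Vale.Agent.P219.Flat.Profile4
import Vale.Agent.P219.Flat.Strict.Lower

/-!
# P219: a profile quartic in the cosine with margins gives a strict certificate
-/

noncomputable section

open Set Filter Topology MeasureTheory

namespace Vale.Agent.P219.CH.Flat.Quart

open Relax (kernS)
open Relax.Profile2D (len)

variable {n : ℕ} {p : Prof} {a : ℝ → ℝ} {β μ : ℝ}

/-- The pointwise facts of a profile with margins for the slack `μ`. -/
structure Margins (n : ℕ) (a : ℝ → ℝ) (β μ : ℝ) (p : Prof) : Prop where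
  gain : ∀ r, 0 < r → ∀ c d, 0 ≤ c → c ≤ d → d ≤ 1 →
    μ * r ^ 9 ≤ p.symX n r c d + 2 * (c * d) * p.N r d
  mixed : ∀ r, 0 < r → ∀ c ∈ Icc (0 : ℝ) 1, ∀ d ∈ Icc (0 : ℝ) 1,
    2 * (c * d) * p.N r 0 + μ * r ^ 9 ≤ p.symP n r c (-d)
  outward : ∀ r, 0 < r → ∀ c ∈ Icc (0 : ℝ) 1, ∀ d ∈ Icc (0 : ℝ) 1,
    μ * r ^ 9 ≤ p.symP n r (-c) (-d)
  pair : ∀ r, 0 < r → ∀ c ∈ Ioc (0 : ℝ) 1, ∀ d ∈ Ioc (0 : ℝ) 1,
    a c * d + a d * c + 2 * β * (c * d) * r +
        μ * r ^ (n - 3) * (((r - 2 * c) ^ 2 + (r - 2 * d) ^ 2) / 2) ≤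
      r ^ (n - 10) * p.symP n r c d

/-- The weights of a profile bound their kernel from below by its polynomial kernel. -/
lemma lowerWeights [NeZero n] (hn : 10 ≤ n) (h : p.Smooth) (hf : Facts n a β p) :
    Strict.LowerWeights n fun r c d => p.symX n r c d / r ^ 9 := by
  intro ε T hε hT
  obtain ⟨δ, hδd⟩ : ∃ δ, δ = ε / 5 := ⟨_, rfl⟩
  obtain ⟨η, hηd⟩ : ∃ η, η = ε / (2 * n * T) := ⟨_, rfl⟩
  have hn0 : (0 : ℝ) < n := by exact_mod_cast (by omega : 0 < n)
  have hδ : 0 < δ := hδd ▸ by positivity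
  have hη : 0 < η := hηd ▸ by positivity
  have hloss : η * (2 * n * T) = ε := by rw [hηd]; field_simp
  have low : ∀ r c d, r ∈ Ioc 0 T → c ∈ Icc (-1 : ℝ) 1 → d ∈ Icc (-1 : ℝ) 1 →
      damp δ r * (p.symX n r c d / r ^ 9) ≤ sym n (p.wOf δ η) r c d + ε := fun r c d hr hc hd => by
    have := sym_lower (η := η) (show 1 ≤ n by omega) h hδ.ne' hη.le hr (fun x hx => hf.dC_nonpos hr.1 hx)
      (fun x hx => hf.N_nonneg hr.1 hx) hc hd
    rw [hloss] at this
    linarith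
  refine ⟨p.wOf δ η, damp δ, h.contDiff_wOf hδ.ne' η,
    fun q s hq hs => wOf_pos hδ.ne' hη (fun r hr c hc => hf.N_nonneg hr hc) hq hs, ?_,
    fun r hr => ⟨damp_mem hδ.ne' r, fun q hq => damp_mono hδ.ne' hr.le hq,
      (damp_loss hδ hr.le).trans (le_of_eq (by rw [hδd]; ring))⟩, low⟩
  intro r c d hr hc hd
  rcases hr.1.eq_or_lt with h0 | h0
  · subst h0
    have hsym : sym n (p.wOf δ η) 0 c d = 2 + 2 * ((n : ℝ) - 1) * η := by
      have hw : p.wOf δ η (0, 0) = η := by simp [Prof.wOf, Prof.core, len]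
      simp only [sym, kernS, Bend.cfac_zero, sfac_flat, div_one, zero_pow two_ne_zero, zero_div,
        zero_mul, mul_zero, sub_zero, Real.sqrt_zero, hw, add_zero, one_mul]
      ring
    have : 0 ≤ gainW (p.wOf δ η) 0 c d := by unfold gainW; positivity
    rw [hsym]
    have : (1 : ℝ) ≤ n := by exact_mod_cast (by omega : 1 ≤ n)
    nlinarith
  · have h1 := low r c d ⟨h0, hr.2⟩ hc hd
    have h2 := gain_lower (η := η) hδ.ne' hη.le h0 (hf.N_nonneg h0 hc) (hf.N_nonneg h0 hd)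
    have h3 := mul_nonneg (damp_mem hδ.ne' r).1
      (div_nonneg (hf.gain_all h0 hc hd) (pow_nonneg h0.le 9))
    rw [add_div, mul_add] at h3
    linarith

/-- A profile with margins gives a strict certificate. -/
theorem strictAt_of_profile [NeZero n] (hn : 10 ≤ n) (h : p.Smooth) (hf : Facts n a β p)
    (hμ : 0 < μ) (hM : Margins n a β μ p) (hcert : Cert n a β) : Strict.StrictAt n a β μ := by
  have hin : ∀ {x : ℝ}, x ∈ Ioc (0 : ℝ) 1 → x ∈ Icc (-1 : ℝ) 1 ∧ -x ∈ Icc (-1 : ℝ) 1 := fun hx =>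
    ⟨⟨by linarith [hx.1], hx.2⟩, by linarith [hx.2], by linarith [hx.1]⟩
  have epow : ∀ {r : ℝ} (X : ℝ), 0 < r → r ^ (n - 1) * (X / r ^ 9) = r ^ (n - 10) * X :=
    fun {r} X hr => by
      rw [show n - 1 = n - 10 + 9 by omega, pow_add]
      field_simp
  have epow' : ∀ {r : ℝ}, r ^ (n - 1) * μ = r ^ (n - 10) * (μ * r ^ 9) := fun {r} => by
    rw [show n - 1 = n - 10 + 9 by omega, pow_add]
    ring
  have z0 : (0 : ℝ) ∈ Icc (0 : ℝ) 1 := ⟨le_rfl, zero_le_one⟩
  refine Strict.strictAt_of_lower (h := fun r => r ^ (n - 10) * p.P0 r) hcert hμ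
    ⟨?_, ?_, ?_, ?_, ?_, ?_, hf.mono⟩ (lowerWeights hn h hf)
  · intro r hr c hc d hd hcd
    have key : ∀ e ∈ Icc (-1 : ℝ) 1, μ * r ^ 9 ≤ p.symX n r 0 e := by
      intro e he
      rcases le_or_gt 0 e with he0 | he0
      · have := hM.gain r hr 0 e le_rfl he0 he.2
        simpa using this
      · have h1 := hM.mixed r hr 0 z0 (-e) ⟨by linarith, by linarith [he.1]⟩
        rw [zero_mul, mul_zero, zero_mul, zero_add, neg_neg] at h1
        exact h1.trans (hf.symP_le_symX hr ⟨by norm_num, by norm_num⟩ he)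
    rw [le_div_iff₀ (pow_pos hr _)]
    rcases mul_eq_zero.1 hcd with h0 | h0
    · rw [h0]; exact key d hd
    · rw [h0, p.symX_comm]; exact key c hc
  · intro r hr c hc d hd
    obtain ⟨hk1, hk2, hk3⟩ := Strict.kap_le hμ.le hr.le (hin hc).1 (hin hd).1
    have h1 := mul_le_mul_of_nonneg_left hk3 (pow_nonneg hr.le (n - 3))
    rw [← mul_assoc, ← pow_add, show n - 3 + 2 = n - 1 by omega] at h1
    have h2 := hM.pair r hr c hc d hd
    have h3 := mul_le_mul_of_nonneg_left (hf.symP_le_symX hr (hin hc).1 (hin hd).1) (pow_nonneg hr.le (n - 10))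
    rw [epow _ hr]
    linarith
  · intro r hr c hc d hd
    obtain ⟨-, hk2, -⟩ := Strict.kap_le hμ.le hr.le (hin hc).1 (hin hd).1
    have h1 := mul_le_mul_of_nonneg_left hk2 (pow_nonneg hr.le (n - 1))
    rw [epow'] at h1
    have hcd : 0 ≤ 2 * (c * d) := by have := hc.1; have := hd.1; positivity
    have key : -(2 * (c * d) * p.N r 0) + μ * r ^ 9 ≤ p.symX n r c d := by
      rcases le_total c d with h' | h'
      · have := mul_le_mul_of_nonneg_left (hf.N_anti hr (show (0 : ℝ) ^ 2 ≤ d ^ 2 by nlinarith)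
          (pow_le_one₀ hd.1.le hd.2)) hcd
        linarith [hM.gain r hr c d hc.1.le h' hd.2]
      · have := mul_le_mul_of_nonneg_left (hf.N_anti hr (show (0 : ℝ) ^ 2 ≤ c ^ 2 by nlinarith)
          (pow_le_one₀ hc.1.le hc.2)) hcd
        have h2 := hM.gain r hr d c hd.1.le h' hc.2
        rw [p.symX_comm, mul_comm d c] at h2
        linarith
    have h3 := mul_le_mul_of_nonneg_left key (pow_nonneg hr.le (n - 10))
    simp only [Prof.N, zero_pow two_ne_zero, zero_pow (show (4 : ℕ) ≠ 0 by norm_num), zero_mul, add_zero] at h3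
    rw [epow _ hr]
    linarith
  · intro r hr c hc d hd
    have h2 := mul_le_mul_of_nonneg_left ((hM.mixed r hr c (Ioc_subset_Icc_self hc) d
      (Ioc_subset_Icc_self hd)).trans (hf.symP_le_symX hr (hin hc).1 (hin hd).2)) (pow_nonneg hr.le (n - 10))
    simp only [Prof.N, zero_pow two_ne_zero, zero_pow (show (4 : ℕ) ≠ 0 by norm_num), zero_mul, add_zero] at h2
    rw [epow _ hr, epow']
    linarith
  · intro r hr c hc d hd
    rw [le_div_iff₀ (pow_pos hr _)]
    exact (hM.outward r hr c (Ioc_subset_Icc_self hc) d (Ioc_subset_Icc_self hd)).trans (hf.symP_le_symX hr (hin hc).2 (hin hd).2)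
  · intro r hr
    refine mul_nonneg (pow_nonneg hr.le _) ?_
    simpa [Prof.N] using hf.N_nonneg hr (show (0 : ℝ) ∈ Icc (-1 : ℝ) 1 from ⟨by norm_num, by norm_num⟩)

end Vale.Agent.P219.CH.Flat.Quart
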