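import Vale.Agent.P219.Flat.Strict.Defs
import Vale.Agent.P219.Flat.PairRows

/-!
# P219: the slack of a pair of rows, without curvature bound
-/

noncomputable section

open MeasureTheory Set Filter Topology Matrix
open scoped ENNReal

namespace Vale.Agent.P219.CH.Flat.Strict

open Relax (ijac ijac_pos ijac_le_one)

variable {n : ℕ} {G : (Fin n → ℝ) → Matrix (Fin n) (Fin n) ℝ}
  {D : (Fin n → ℝ) → (Fin n → ℝ) → ℝ} {u : (Fin n → ℝ) → ℝ} {w : ℝ × ℝ → ℝ}
  {μ s ε : ℝ} {o : Fin n → ℝ} {R : ℝ}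

/-- The slack of two boundary points of a competitor at scale `s`. -/
def slackAt (G : (Fin n → ℝ) → Matrix (Fin n) (Fin n) ℝ) (D : (Fin n → ℝ) → (Fin n → ℝ) → ℝ)
    (μ : ℝ) (u : (Fin n → ℝ) → ℝ) (s : ℝ) (x y : Fin n → ℝ) : ℝ≥0∞ :=
  ENNReal.ofReal (kap μ (s * Real.sqrt (2 * D x y), Dir.scos G D u y x, Dir.scos G D u x y))

/-- The weighted slack is paid by what the kernel loses. -/
theorem lintegral_slack_le (h : IsCH G D) (hu : Comp {y | D o y ≤ R} u) (hw : ContDiff ℝ 1 w)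
    (hμ : 0 ≤ μ) (hs : 0 ≤ s) (hε : 0 ≤ ε) :
    (∫⁻ x, (∫⁻ y, slackAt G D μ u s x y * ENNReal.ofReal (ijac G D x y) ∂Sharp.pm G u)
        ∂Sharp.pm G u) ≤
      ENNReal.ofReal ((∫ z : (Fin n → ℝ) × (Fin n → ℝ), Flat.kerQ G D u w s ε z.1 z.2
          ∂((Sharp.pm G u).prod (Sharp.pm G u))) -
        (∫ z : (Fin n → ℝ) × (Fin n → ℝ), kerK G D u (cutK n μ ε w) s ε z.1 z.2
          ∂((Sharp.pm G u).prod (Sharp.pm G u))) + ε * per G u ^ 2) := by
  have hK := h.proper o R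
  have := Sharp.isFiniteMeasure_pm h hK hu
  obtain ⟨ν, hν⟩ : ∃ ν, ν = Sharp.pm G u := ⟨_, rfl⟩
  have : IsFiniteMeasure ν := hν ▸ this
  have hQ := Flat.integrable_kerQ (ε := ε) h hu hw hs
  have hC := integrable_kerK (ε := ε) h hu (continuous_cutK (n := n) (μ := μ) (ε := ε) hw) hs
  have hS := integrable_kerK (ε := (0 : ℝ)) h hu (continuous_kap μ) hs
  have hSm := measurable_kerK (s := s) (ε := (0 : ℝ)) h hu.1 (continuous_kap μ)
  have hP : ν.real univ = per G u := by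
    rw [hν, measureReal_def]; exact Sharp.pm_univ h hK hu
  rw [← hν] at hQ hC hS ⊢
  have hnn : ∀ z : (Fin n → ℝ) × (Fin n → ℝ), 0 ≤ kerK G D u (kap μ) s 0 z.1 z.2 := fun z =>
    mul_nonneg (by simpa using kap_nonneg hμ _) (ijac_pos h _ _).le
  have e : (∫⁻ x, (∫⁻ y, slackAt G D μ u s x y * ENNReal.ofReal (ijac G D x y) ∂ν) ∂ν) =
      ∫⁻ z : (Fin n → ℝ) × (Fin n → ℝ),
        ENNReal.ofReal (kerK G D u (kap μ) s 0 z.1 z.2) ∂ν.prod ν := by
    rw [lintegral_prod _ hSm.ennreal_ofReal.aemeasurable]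
    refine lintegral_congr fun x => lintegral_congr fun y => ?_
    rw [slackAt, kerK, add_zero, ENNReal.ofReal_mul (kap_nonneg hμ _)]
  rw [e, ← ofReal_integral_eq_lintegral_ofReal hS (Eventually.of_forall hnn)]
  refine ENNReal.ofReal_le_ofReal ?_
  have key := integral_mono hS ((hQ.sub hC).add (integrable_const (μ := ν.prod ν) ε))
    fun z => (?_ : kerK G D u (kap μ) s 0 z.1 z.2 ≤ _)
  · refine key.trans (le_of_eq ?_)
    simp only [Pi.add_apply, Pi.sub_apply]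
    rw [integral_add (f := fun z : (Fin n → ℝ) × (Fin n → ℝ) => Flat.kerQ G D u w s ε z.1 z.2 -
          kerK G D u (cutK n μ ε w) s ε z.1 z.2) (hQ.sub hC) (integrable_const _),
      integral_sub hQ hC, integral_const, ← univ_prod_univ, measureReal_prod_prod, hP, smul_eq_mul]
    ring
  · simp only [Pi.add_apply, Pi.sub_apply, kerK, Flat.kerQ, cutK, add_zero]
    obtain ⟨q, hq⟩ : ∃ q, q = ijac G D z.1 z.2 := ⟨_, rfl⟩
    rw [← hq]
    obtain ⟨kv, hkv⟩ : ∃ kv, kv = kap μ (s * Real.sqrt (2 * D z.1 z.2), Dir.scos G D u z.2 z.1,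
      Dir.scos G D u z.1 z.2) := ⟨_, rfl⟩
    rw [← hkv]
    have hq0 : 0 ≤ q := hq ▸ (ijac_pos h _ _).le
    have hq1 : q ≤ 1 := hq ▸ ijac_le_one h _ _
    linarith [mul_le_mul_of_nonneg_right (le_max_left (kv - ε) 0) hq0,
      mul_le_of_le_one_right hε hq1]

end Vale.Agent.P219.CH.Flat.Strict
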